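import Vale.Agent.P090.Grp

/-!
The Bernoulli shift: invariance, Walsh expansion, freeness and the spectral gap.
-/

open MeasureTheory
open scoped ENNReal symmDiff Pointwise

noncomputable section

namespace Vale.Agent.P189

open Vale.Agent.P090
open Classical

theorem hasSum_of_eq {P : Type} {f g : P → ℝ} {a : ℝ} (h : HasSum f a) (e : ∀ i, g i = f i) :
    HasSum g a := by
  rw [funext e]
  exact h

theorem hasSum_equiv {P : Type} (e : P ≃ P) {f : P → ℝ} {a : ℝ} (h : HasSum f a) :
    HasSum (fun v => f (e v)) a := e.hasSum_iff.2 h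

theorem gap_seq {P : Type} [MulAction W P] (A : Set P)
    (hA : ∀ v d, ltr d • v ∈ A ↔ v ∈ A) (hfree : ∀ v ∈ A, ∀ g : W, g • v = v → g = 1)
    (h : P → ℝ) (h0 : ∀ v, v ∉ A → h v = 0) {N : ℝ} (hN : HasSum (fun v => h v ^ 2) N)
    {E : Ltr → ℝ} (hE : ∀ d, HasSum (fun v => (h (ltr d • v) - h v) ^ 2) (E d)) :
    N ≤ ∑ d, E d := by
  obtain ⟨w, hw⟩ := exists_potential A fun v g hr e => hfree v (by
    have := hr.mem
    rwa [e] at this) g e
  set θ : P → Ltr → ℝ := fun v d => if v ∈ A then flow (w v) d else 0 with hθ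
  have hanti : ∀ v d, θ (ltr d • v) (inv d) = -θ v d := by
    intro v d
    by_cases hv : v ∈ A
    · simp only [hθ, hA, hv, if_true]
      rw [hw v d hv ((hA v d).2 hv), flow_inv]
    · simp [hθ, hA, hv]
  have habs : ∀ v d, |θ v d| ≤ 1 := by
    intro v d
    by_cases hv : v ∈ A
    · simpa [hθ, hv] using abs_flow_le _ _
    · simp [hθ, hv]
  have hsum : ∀ v, 2 * h v ^ 2 ≤ ∑ d, θ v d * h v ^ 2 := by
    intro v
    by_cases hv : v ∈ A
    · rw [← Finset.sum_mul]
      refine mul_le_mul_of_nonneg_right ?_ (sq_nonneg _)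
      simp only [hθ, hv, if_true]
      by_cases h1 : w v = 1
      · simp [h1, flow, norm_ltr]
        norm_num
      · exact (sum_flow _ h1).ge
    · simp [h0 v hv]
  have hs : ∀ d, Summable fun v => θ v d * h v ^ 2 := by
    intro d
    refine Summable.of_norm_bounded hN.summable fun v => ?_
    rw [Real.norm_eq_abs, abs_mul, abs_of_nonneg (sq_nonneg (h v))]
    exact mul_le_of_le_one_left (sq_nonneg _) (habs v d)
  clear_value θ
  choose a ha using hs
  have h1 : 2 * N ≤ ∑ d, a d :=
    hasSum_le hsum (hN.mul_left 2) (hasSum_sum fun d _ => ha d)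
  have h2 : ∀ d, a d + a (inv d) ≤ 2 * E d + (N + N) / 4 := by
    intro d
    have e1 : HasSum (fun v => θ (ltr d • v) (inv d) * h (ltr d • v) ^ 2) (a (inv d)) :=
      hasSum_equiv (f := fun v => θ v (inv d) * h v ^ 2) (MulAction.toPerm (ltr d))
        (ha (inv d))
    have e2 : HasSum (fun v => h (ltr d • v) ^ 2) N :=
      hasSum_equiv (f := fun v => h v ^ 2) (MulAction.toPerm (ltr d)) hN
    refine hasSum_le (fun v => ?_) ((ha d).add e1)
      (((hE d).mul_left 2).add ((hN.add e2).div_const 4))
    rw [hanti]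
    have := abs_le.1 (habs v d)
    generalize θ v d = t at *
    generalize h v = x
    generalize h (ltr d • v) = y
    nlinarith [mul_nonneg (sub_nonneg.2 this.2) (sq_nonneg (4 * (x - y) + (x + y))),
      mul_nonneg (sub_nonneg.2 this.1) (sq_nonneg (4 * (x - y) - (x + y))), sq_nonneg (x - y)]
  have h3 : ∑ d, a (inv d) = ∑ d, a d :=
    Fintype.sum_equiv (Function.Involutive.toPerm inv inv_inv') _ _ fun _ => rfl
  have h4 := Finset.sum_le_sum fun d (_ : d ∈ Finset.univ) => h2 d
  rw [Finset.sum_add_distrib, Finset.sum_add_distrib, h3, ← Finset.mul_sum] at h4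
  simp only [Finset.sum_const, Finset.card_univ, Fintype.card_prod, Fintype.card_bool,
    nsmul_eq_mul] at h4
  push_cast at h4
  linarith

/-- The fair coin. -/
def coin : Measure Bool := (2⁻¹ : ℝ≥0∞) • Measure.count

theorem coin_singleton (b : Bool) : coin {b} = 2⁻¹ := by simp [coin]

instance : IsProbabilityMeasure coin :=
  ⟨by
    rw [coin, Measure.smul_apply, Measure.count_univ]
    simp [ENNReal.inv_mul_cancel]⟩

theorem coin_not : coin.map (fun b => !b) = coin := by
  refine Measure.ext_of_singleton fun b => ?_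
  rw [Measure.map_apply (measurable_of_countable _) (measurableSet_singleton _)]
  have : (fun b => !b) ⁻¹' {b} = {!b} := by
    ext a
    cases a <;> cases b <;> simp
  rw [this, coin_singleton, coin_singleton]

variable {Γ : Type}

/-- The product measure. -/
def bern (Γ : Type) : Measure (Γ → Bool) := Measure.infinitePi fun _ => coin

instance : IsProbabilityMeasure (bern Γ) := by
  unfold bern
  infer_instance

def sg (b : Bool) : ℝ := if b then 1 else -1

theorem sg_mul_self (b : Bool) : sg b * sg b = 1 := by cases b <;> simp [sg]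

theorem sg_not (b : Bool) : sg (!b) = -sg b := by cases b <;> simp [sg]

/-- The Walsh functions. -/
def chi (A : Finset Γ) : C(Γ → Bool, ℝ) :=
  ⟨fun ω => ∏ γ ∈ A, sg (ω γ), continuous_finsetProd _ fun γ _ =>
    (continuous_of_discreteTopology (f := sg)).comp (continuous_apply γ)⟩

theorem chi_apply (A : Finset Γ) (ω : Γ → Bool) : chi A ω = ∏ γ ∈ A, sg (ω γ) := rfl

theorem chi_mul (A B : Finset Γ) (ω : Γ → Bool) : chi A ω * chi B ω = chi (A ∆ B) ω := by
  simp only [chi_apply]
  rw [← Finset.prod_inter_mul_prod_sdiff A B, ← Finset.prod_inter_mul_prod_sdiff B A,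
    Finset.symmDiff_def, Finset.prod_union (disjoint_sdiff_sdiff), Finset.inter_comm B A,
    mul_mul_mul_comm, ← Finset.prod_mul_distrib]
  simp [sg_mul_self]

theorem measurable_chi (A : Finset Γ) : Measurable (chi A) :=
  Finset.measurable_prod _ fun γ _ => (measurable_of_countable sg).comp (measurable_pi_apply γ)

theorem integral_chi {A : Finset Γ} (hA : A ≠ ∅) : ∫ ω, chi A ω ∂bern Γ = 0 := by
  obtain ⟨γ₀, h₀⟩ := Finset.nonempty_iff_ne_empty.2 hA
  set f : Γ → Bool → Bool := fun γ b => if γ = γ₀ then !b else b with hf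
  have hm : Measurable fun (ω : Γ → Bool) γ => f γ (ω γ) :=
    measurable_pi_lambda _ fun γ => (measurable_of_countable (f γ)).comp (measurable_pi_apply γ)
  have h1 : (bern Γ).map (fun ω γ => f γ (ω γ)) = bern Γ := by
    rw [bern, Measure.infinitePi_map_pi _ fun γ => measurable_of_countable (f γ)]
    congr 1
    funext γ
    by_cases h : γ = γ₀
    · simp only [hf, h, if_true]
      exact coin_not
    · simp [hf, h]
  have h2 : ∀ ω : Γ → Bool, chi A (fun γ => f γ (ω γ)) = -chi A ω := by
    intro ω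
    simp only [chi_apply]
    rw [← Finset.mul_prod_erase A _ h₀, ← Finset.mul_prod_erase A _ h₀]
    simp only [hf, if_true, sg_not, neg_mul]
    congr 2
    refine Finset.prod_congr rfl fun γ hγ => ?_
    rw [if_neg (Finset.ne_of_mem_erase hγ)]
  have h3 := integral_map (μ := bern Γ) hm.aemeasurable
    (f := chi A) (measurable_chi A).aestronglyMeasurable
  rw [h1] at h3
  simp only [h2, integral_neg] at h3
  linarith

variable [Countable Γ]

/-- The Walsh functions in `L²`. -/
def chiL (A : Finset Γ) : Lp ℝ 2 (bern Γ) := ContinuousMap.toLp (E := ℝ) 2 (bern Γ) ℝ (chi A)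

theorem orthonormal_chiL : Orthonormal ℝ (chiL (Γ := Γ)) := by
  rw [orthonormal_iff_ite]
  intro A B
  rw [chiL, chiL, ContinuousMap.inner_toLp]
  simp only [conj_trivial, chi_mul]
  split_ifs with h
  · simp [h, chi_apply]
  · exact integral_chi fun e => h (symmDiff_eq_bot.1 e).symm

omit [Countable Γ] in
theorem span_chi : (Submodule.span ℝ (Set.range (chi (Γ := Γ)))).topologicalClosure = ⊤ := by
  have h1 : Subalgebra.toSubmodule (Algebra.adjoin ℝ (Set.range (chi (Γ := Γ)))) =
      Submodule.span ℝ (Set.range (chi (Γ := Γ))) := by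
    apply Algebra.adjoin_eq_span_of_subset
    refine Set.Subset.trans ?_ Submodule.subset_span
    intro x hx
    refine Submonoid.closure_induction (fun _ => id) ⟨∅, ?_⟩ ?_ hx
    · ext1 z
      simp [chi_apply]
    · rintro - - - - ⟨m, rfl⟩ ⟨n, rfl⟩
      refine ⟨m ∆ n, ?_⟩
      ext1 z
      exact (chi_mul m n z).symm
  have h2 : (Algebra.adjoin ℝ (Set.range (chi (Γ := Γ)))).SeparatesPoints := by
    intro x y hxy
    obtain ⟨γ, hγ⟩ := Function.ne_iff.1 hxy
    refine ⟨_, ⟨chi {γ}, Algebra.subset_adjoin ⟨{γ}, rfl⟩, rfl⟩, ?_⟩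
    simp only [chi_apply, Finset.prod_singleton]
    revert hγ
    cases x γ <;> cases y γ <;> simp [sg] <;> norm_num
  rw [← h1]
  exact congr_arg Subalgebra.toSubmodule
    (ContinuousMap.subalgebra_topologicalClosure_eq_top_of_separatesPoints _ h2)

theorem span_chiL : (Submodule.span ℝ (Set.range (chiL (Γ := Γ)))).topologicalClosure = ⊤ := by
  convert! (ContinuousMap.toLp_denseRange ℝ (bern Γ) ℝ
    (p := 2) (by norm_num)).topologicalClosure_map_submodule span_chi
  rw [Submodule.map_span]
  unfold chiL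
  rw [Set.range_comp']
  simp only [ContinuousLinearMap.coe_coe]

/-- The Walsh coefficients of an indicator function. -/
def co (s : Set (Γ → Bool)) (A : Finset Γ) : ℝ := ∫ ω in s, chi A ω ∂bern Γ

theorem parseval {s t : Set (Γ → Bool)} (hs : MeasurableSet s) (ht : MeasurableSet t) :
    HasSum (fun A => co s A * co t A) ((bern Γ).real (s ∩ t)) := by
  have key : ∀ {s : Set (Γ → Bool)} (hs : MeasurableSet s) (A : Finset Γ),
      inner ℝ (indicatorConstLp 2 hs (measure_ne_top (bern Γ) s) (1 : ℝ)) (chiL A) = co s A := by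
    intro s hs A
    rw [L2.inner_indicatorConstLp_one, co]
    exact setIntegral_congr_ae hs
      ((ContinuousMap.coeFn_toLp (𝕜 := ℝ) (bern Γ) (chi A)).mono fun x hx _ => hx)
  have := (HilbertBasis.mk orthonormal_chiL span_chiL.ge).hasSum_inner_mul_inner
    (indicatorConstLp 2 hs (measure_ne_top (bern Γ) s) (1 : ℝ))
    (indicatorConstLp 2 ht (measure_ne_top (bern Γ) t) (1 : ℝ))
  rw [L2.real_inner_indicatorConstLp_one_indicatorConstLp_one] at this
  simp only [HilbertBasis.coe_mk] at this
  refine hasSum_of_eq this fun A => ?_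
  rw [key hs, real_inner_comm, key ht]

variable [Group Γ]

/-- The shift, acting on the right. -/
def sh (ω : Γ → Bool) (g : Γ) : Γ → Bool := fun γ => ω (g * γ)

omit [Countable Γ] in
theorem sh_mp (g : Γ) : MeasurePreserving (fun ω => sh ω g) (bern Γ) (bern Γ) := by
  have hm : Measurable fun ω : Γ → Bool => sh ω g :=
    measurable_pi_lambda _ fun γ => measurable_pi_apply _
  refine ⟨hm, Measure.eq_infinitePi _ fun s t ht => ?_⟩
  rw [Measure.map_apply hm (MeasurableSet.pi s.countable_toSet fun i _ => ht i)]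
  have : (fun ω : Γ → Bool => sh ω g) ⁻¹' (Set.pi s t) =
      Set.pi (s.map (Equiv.mulLeft g).toEmbedding) fun γ => t (g⁻¹ * γ) := by
    ext ω
    simp only [sh, Set.mem_preimage, Set.mem_pi, Finset.coe_map, Set.forall_mem_image]
    simp
  rw [this, bern, Measure.infinitePi_pi _ fun i _ => ht _, Finset.prod_map]
  simp

omit [Countable Γ] in
theorem chi_sh (g : Γ) (A : Finset Γ) (ω : Γ → Bool) : chi A (sh ω g) = chi (g • A) ω := by
  simp only [chi_apply, sh]
  rw [Finset.smul_finset_def, Finset.prod_image fun _ _ _ _ h => MulAction.injective g h]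
  rfl

omit [Countable Γ] in
theorem co_sh (g : Γ) {s : Set (Γ → Bool)} (hs : MeasurableSet s) (A : Finset Γ) :
    co ((fun ω => sh ω g) ⁻¹' s) (g • A) = co s A := by
  have := setIntegral_map (μ := bern Γ) hs (f := chi A) (measurable_chi A).aestronglyMeasurable
    (sh_mp g).measurable.aemeasurable
  rw [(sh_mp g).map_eq] at this
  simp only [chi_sh] at this
  exact this.symm

theorem sh_free [Infinite Γ] (g : Γ) (hg : g ≠ 1) : bern Γ {ω | sh ω g = ω} = 0 := by
  set F : Set (Γ → Bool) := {ω | sh ω g = ω}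
  have hF : MeasurableSet F := measurableSet_eq_fun (sh_mp g).measurable measurable_id
  have h1 : ∀ γ, co F {g * γ, γ} = (bern Γ).real F := by
    intro γ
    have : ∀ ω ∈ F, chi {g * γ, γ} ω = 1 := by
      intro ω hω
      rw [chi_apply, Finset.prod_pair (by simpa using hg), show ω (g * γ) = ω γ from
        congrFun hω γ, sg_mul_self]
    rw [co, setIntegral_congr_fun hF this]
    simp
  by_contra hne
  have hpos : 0 < (bern Γ).real F := ENNReal.toReal_pos hne (measure_ne_top _ _)
  have h2 := (parseval hF hF).summable.tendsto_cofinite_zero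
  have h3 := h2.eventually (gt_mem_nhds (mul_pos hpos hpos))
  rw [Filter.eventually_cofinite] at h3
  refine Set.infinite_univ (α := Γ) ((h3.biUnion fun A _ => A.finite_toSet).subset fun γ _ => ?_)
  simp only [Set.mem_iUnion]
  exact ⟨{g * γ, γ}, by simp [h1], by simp⟩

theorem sh_gap (ρ : W →* Γ) (hρ : Function.Injective ρ)
    (htf : ∀ (g : Γ) (k : ℕ), k ≠ 0 → g ^ k = 1 → g = 1) (s : Set (Γ → Bool))
    (hs : MeasurableSet s) :
    bern Γ s * bern Γ sᶜ ≤ ∑ d : Ltr, bern Γ (s ∆ ((fun ω => sh ω (ρ (ltr d))) ⁻¹' s)) := by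
  let : MulAction W (Finset Γ) := MulAction.compHom _ ρ
  have hsm : ∀ (g : W) (A : Finset Γ), g • A = ρ g • A := fun _ _ => rfl
  have hP := parseval hs hs
  rw [Set.inter_self] at hP
  have h0 : co s ∅ = (bern Γ).real s := by simp [co, chi_apply]
  have hN : HasSum (fun A => (if A = ∅ then 0 else co s A) ^ 2)
      ((bern Γ).real s - (bern Γ).real s * (bern Γ).real s) := by
    have := hP.sub (hasSum_ite_eq (∅ : Finset Γ) ((bern Γ).real s * (bern Γ).real s))
    refine hasSum_of_eq this fun A => ?_
    split_ifs with h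
    · simp [h, h0]
    · ring
  have hE : ∀ d : Ltr, HasSum (fun A : Finset Γ => ((if ltr d • A = ∅ then 0 else co s (ltr d • A))
      - (if A = ∅ then 0 else co s A)) ^ 2)
      ((bern Γ).real (s ∆ ((fun ω => sh ω (ρ (ltr d))) ⁻¹' s))) := by
    intro d
    set t := (fun ω => sh ω (ρ (ltr d))) ⁻¹' s
    have ht : MeasurableSet t := (sh_mp _).measurable hs
    have e1 := parseval ht ht
    rw [Set.inter_self] at e1
    have e2 := (hP.add e1).sub ((parseval hs ht).mul_left 2)
    have e3 : (bern Γ).real (s ∆ t) =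
        (bern Γ).real s + (bern Γ).real t - 2 * (bern Γ).real (s ∩ t) := by
      have a1 := measureReal_inter_add_sdiff (μ := bern Γ) (s := s) ht
      have a2 := measureReal_inter_add_sdiff (μ := bern Γ) (s := t) hs
      rw [Set.symmDiff_def, measureReal_union disjoint_sdiff_sdiff (ht.diff hs)]
      rw [Set.inter_comm] at a2
      linarith
    rw [e3]
    refine hasSum_of_eq (hasSum_equiv (MulAction.toPerm (ρ (ltr d))) e2) fun A => ?_
    simp only [MulAction.toPerm_apply, hsm, t, co_sh _ hs,
      Finset.smul_finset_eq_empty]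
    split_ifs with h
    · simp [h]
      ring
    · ring
  have h1 := gap_seq {A : Finset Γ | A ≠ ∅} (by simp [hsm]) ?_ _ (by simp +contextual) hN hE
  · rw [← ENNReal.toReal_le_toReal (by finiteness) (by
      exact ENNReal.sum_ne_top.2 fun _ _ => measure_ne_top _ _), ENNReal.toReal_mul,
      ENNReal.toReal_sum fun _ _ => measure_ne_top _ _]
    have := measureReal_add_measureReal_compl (μ := bern Γ) hs
    rw [probReal_univ] at this
    refine le_trans (le_of_eq ?_) h1
    show (bern Γ).real s * (bern Γ).real sᶜ = _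
    rw [eq_sub_of_add_eq' this]
    ring
  · intro A hA g hg
    obtain ⟨a, ha⟩ := Finset.nonempty_iff_ne_empty.2 hA
    have h2 : ∀ k : ℕ, ρ g ^ k * a ∈ A := by
      intro k
      induction k with
      | zero => simpa using ha
      | succ k ih =>
        rw [pow_succ', mul_assoc, ← hg, hsm]
        exact Finset.smul_mem_smul_finset ih
    obtain ⟨i, j, hij, e⟩ := Set.Finite.exists_lt_map_eq_of_forall_mem h2 A.finite_toSet
    have e' : ρ g ^ (j - i) = 1 := by
      have := mul_right_cancel e
      rw [← Nat.add_sub_cancel' hij.le, pow_add] at this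
      simpa using this.symm
    exact hρ ((htf _ _ (by omega) e').trans (map_one ρ).symm)

omit [Group Γ] in
theorem exists_cover [Infinite Γ] (L : ℕ) : ∃ B : ℕ → Set (Γ → Bool),
    (∀ n, MeasurableSet (B n)) ∧ (∀ x, ∃ n, x ∈ B n) ∧ ∀ n, L * bern Γ (B n) ≤ 1 / 2 := by
  obtain ⟨F, hF⟩ := Infinite.exists_subset_card_eq Γ (L + 1)
  obtain ⟨e, he⟩ := exists_surjective_nat (Finset Γ)
  refine ⟨fun n => Set.pi F fun γ => {decide (γ ∈ e n)}, fun n =>
    MeasurableSet.pi F.countable_toSet fun _ _ => measurableSet_singleton _, fun x => ?_,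
    fun n => ?_⟩
  · obtain ⟨n, hn⟩ := he (F.filter fun γ => x γ = true)
    refine ⟨n, fun γ hγ => ?_⟩
    have hγ' : γ ∈ F := hγ
    simp [hn, hγ']
  · rw [bern, Measure.infinitePi_pi _ fun _ _ => measurableSet_singleton _]
    simp only [coin_singleton, Finset.prod_const, hF]
    have h1 : (L : ℝ≥0∞) ≤ 2 ^ L := by exact_mod_cast (Nat.lt_two_pow_self (n := L)).le
    calc (L : ℝ≥0∞) * 2⁻¹ ^ (L + 1) ≤ 2 ^ L * 2⁻¹ ^ (L + 1) := by gcongr
      _ = 1 / 2 := by
        rw [pow_succ, ← mul_assoc, ← mul_pow, ENNReal.mul_inv_cancel (by norm_num) (by norm_num)]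
        simp

end Vale.Agent.P189
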