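import Vale.Agent.P090.Grp

/-!
The endomorphism `a ↦ aaba`, `b ↦ bbab` of the free group, and the locally free limit group.
-/

noncomputable section

namespace Vale.Agent.P189

open Vale.Agent.P090 (W Ltr inv inv_inv' ltr ltr_inv ltr_mul_mk)

/-- Parity of the number of base four digits equal to two. -/
def tau (n : ℕ) : Bool := if n = 0 then false else xor (tau (n / 4)) (decide (n % 4 = 2))
decreasing_by omega

theorem tau_zero : tau 0 = false := by rw [tau]; rfl

theorem tau_eq (q r : ℕ) (hr : r < 4) : tau (4 * q + r) = xor (tau q) (decide (r = 2)) := by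
  rw [tau]
  split_ifs with h
  · obtain rfl : q = 0 := by omega
    obtain rfl : r = 0 := by omega
    simp [tau_zero]
  · rw [show (4 * q + r) / 4 = q by omega, show (4 * q + r) % 4 = r by omega]

theorem tau0 (q : ℕ) : tau (4 * q) = tau q := by simpa using tau_eq q 0 (by omega)
theorem tau1 (q : ℕ) : tau (4 * q + 1) = tau q := by simpa using tau_eq q 1 (by omega)
theorem tau2 (q : ℕ) : tau (4 * q + 2) = !tau q := by simpa using tau_eq q 2 (by omega)
theorem tau3 (q : ℕ) : tau (4 * q + 3) = tau q := by simpa using tau_eq q 3 (by omega)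

theorem tau_one : tau 1 = false := (tau1 0).trans tau_zero
theorem tau_two : tau 2 = true := (tau2 0).trans (by rw [tau_zero]; rfl)

theorem tau_last (k : ℕ) : tau (4 ^ k - 1) = false := by
  induction k with
  | zero => exact tau_zero
  | succ k ih =>
    have : 0 < 4 ^ k := by positivity
    rw [show 4 ^ (k + 1) - 1 = 4 * (4 ^ k - 1) + 3 by rw [pow_succ]; omega, tau3, ih]

theorem border (k : ℕ) : ∀ (i : ℕ) (s s' : Bool), 0 < i → i < 4 ^ k →
    (∀ j < i, xor s (tau j) = xor s' (tau (4 ^ k - i + j))) →
    s = s' ∧ tau i = false ∧ tau (4 ^ k - i - 1) = true := by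
  induction k with
  | zero => intro i s s' h0 h1; omega
  | succ k ih =>
    intro i s s' h0 h1 h
    have hl := tau_last k
    have hN : 0 < 4 ^ k := by positivity
    rw [pow_succ] at h1 h ⊢
    generalize 4 ^ k = N at *
    obtain ⟨q, r, hr, rfl⟩ : ∃ q r, r < 4 ∧ i = 4 * q + r :=
      ⟨i / 4, i % 4, Nat.mod_lt _ (by norm_num), by omega⟩
    obtain rfl | rfl | rfl | rfl : r = 0 ∨ r = 1 ∨ r = 2 ∨ r = 3 := by omega
    · obtain ⟨e1, e2, e3⟩ := ih q s s' (by omega) (by omega) (fun j hj => by
        have := h (4 * j) (by omega)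
        rwa [show N * 4 - (4 * q + 0) + 4 * j = 4 * (N - q + j) by omega, tau0, tau0] at this)
      refine ⟨e1, by rw [add_zero, tau0, e2], ?_⟩
      rw [show N * 4 - (4 * q + 0) - 1 = 4 * (N - q - 1) + 3 by omega, tau3, e3]
    · rcases Nat.eq_zero_or_pos q with rfl | hq
      · have := h 0 (by omega)
        rw [show N * 4 - (4 * 0 + 1) + 0 = 4 * (N - 1) + 3 by omega, tau3, hl, tau_zero] at this
        refine ⟨by simpa using this, tau_one, ?_⟩
        rw [show N * 4 - (4 * 0 + 1) - 1 = 4 * (N - 1) + 2 by omega, tau2, hl]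
        rfl
      · have e1 := h 1 (by omega)
        have e2 := h 2 (by omega)
        rw [show N * 4 - (4 * q + 1) + 1 = 4 * (N - q) by omega, tau0, tau_one] at e1
        rw [show N * 4 - (4 * q + 1) + 2 = 4 * (N - q) + 1 by omega, tau1, tau_two, ← e1] at e2
        simp at e2
    · have e1 := h 0 (by omega)
      have e2 := h 1 (by omega)
      rw [show N * 4 - (4 * q + 2) + 0 = 4 * (N - q - 1) + 2 by omega, tau2, tau_zero] at e1
      rw [show N * 4 - (4 * q + 2) + 1 = 4 * (N - q - 1) + 3 by omega, tau3, tau_one, e1] at e2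
      simp at e2
    · have e1 := h 0 (by omega)
      have e2 := h 1 (by omega)
      rw [show N * 4 - (4 * q + 3) + 0 = 4 * (N - q - 1) + 1 by omega, tau1, tau_zero] at e1
      rw [show N * 4 - (4 * q + 3) + 1 = 4 * (N - q - 1) + 2 by omega, tau2, tau_one, e1] at e2
      simp at e2

/-- The endomorphism. -/
def phi : W →* W := FreeGroup.lift fun s =>
  FreeGroup.mk [(s, true), (s, true), (!s, true), (s, true)]

theorem phi_of (s : Bool) : phi (FreeGroup.of s) =
    FreeGroup.of s * FreeGroup.of s * FreeGroup.of (!s) * FreeGroup.of s := by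
  rw [phi, FreeGroup.lift_apply_of]
  rfl

/-- The image of a letter, as a word. -/
def img (d : Ltr) : List Ltr :=
  if d.2 then [d, d, (!d.1, true), d] else [d, (!d.1, false), d, d]

theorem phi_ltr (d : Ltr) : phi (ltr d) = FreeGroup.mk (img d) := by
  obtain ⟨s, b⟩ := d
  cases b
  · have e : ltr (s, false) = (FreeGroup.of s)⁻¹ := ltr_inv (s, true)
    rw [e, map_inv, phi, FreeGroup.lift_apply_of, FreeGroup.inv_mk]
    rfl
  · have e : ltr (s, true) = FreeGroup.of s := rfl
    rw [e, phi, FreeGroup.lift_apply_of]
    rfl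

theorem phi_mk (w : List Ltr) : phi (FreeGroup.mk w) = FreeGroup.mk (w.flatMap img) := by
  induction w with
  | nil => exact map_one _
  | cons d w ih => rw [← ltr_mul_mk, map_mul, ih, phi_ltr, FreeGroup.mul_mk, List.flatMap_cons]

theorem reduced_img : ∀ w : List Ltr, FreeGroup.IsReduced w →
    FreeGroup.IsReduced (w.flatMap img)
  | [], _ => FreeGroup.IsReduced.nil
  | [(s, b)], _ => by cases s <;> cases b <;> simp [img]
  | (s, b) :: (s', b') :: w, h => by
    rw [FreeGroup.isReduced_cons_cons] at h
    have ih := reduced_img _ h.2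
    have h1 := h.1
    cases b <;> cases b' <;> simp_all [img]

theorem phi_injective : Function.Injective phi := by
  rw [injective_iff_map_eq_one]
  intro g hg
  rw [← FreeGroup.mk_toWord (x := g), phi_mk, ← FreeGroup.toWord_eq_nil_iff, FreeGroup.toWord_mk,
    (reduced_img _ FreeGroup.isReduced_toWord).reduce_eq] at hg
  rw [← FreeGroup.toWord_eq_nil_iff]
  cases h : g.toWord with
  | nil => rfl
  | cons d w =>
    rw [h] at hg
    obtain ⟨s, b⟩ := d
    cases b <;> simp [img] at hg

/-- The first `n` letters of the fixed infinite word starting with `s`. -/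
def wn (s : Bool) (n : ℕ) : List Ltr := (List.range n).map fun i => (xor s (tau i), true)

theorem phi_wn (s : Bool) (n : ℕ) : (wn s n).flatMap img = wn s (4 * n) := by
  induction n with
  | zero => rfl
  | succ n ih =>
    rw [wn, List.range_succ, List.map_append, List.flatMap_append, ← wn, ih,
      show 4 * (n + 1) = 4 * n + 1 + 1 + 1 + 1 by ring]
    simp [wn, List.range_succ, img, tau0, tau1, tau2, tau3, add_assoc]

/-- Powers of the endomorphism. -/
def phis : ℕ → W →* W
  | 0 => MonoidHom.id W
  | k + 1 => phi.comp (phis k)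

theorem phis_of (k : ℕ) (s : Bool) : phis k (FreeGroup.of s) = FreeGroup.mk (wn s (4 ^ k)) := by
  induction k with
  | zero => simp [phis, wn, tau_zero, FreeGroup.of]
  | succ k ih => rw [phis, MonoidHom.comp_apply, ih, phi_mk, phi_wn, pow_succ, mul_comm]

theorem phis_add (k l : ℕ) (g : W) : phis (k + l) g = phis l (phis k g) := by
  induction l with
  | zero => rfl
  | succ l ih => exact congrArg phi ih

theorem phis_injective (k : ℕ) : Function.Injective (phis k) := by
  induction k with
  | zero => exact fun _ _ h => h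
  | succ k ih => exact phi_injective.comp ih

/-- The connecting maps. -/
def conn (i j : ℕ) (_ : i ≤ j) : W →* W := phis (j - i)

instance : DirectedSystem (fun _ : ℕ => W) (conn · · ·) where
  map_self i x := by simp [conn, phis]
  map_map k j i hij hjk x := by
    simp only [conn]
    rw [← phis_add]
    congr 2
    omega

/-- The locally free group. -/
def G : Type := DirectLimit (fun _ : ℕ => W) conn

instance : Group G := inferInstanceAs (Group (DirectLimit (fun _ : ℕ => W) conn))

instance : Countable G := inferInstanceAs (Countable (Quotient _))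

/-- The embedding of the free group at level `n`. -/
def emb (n : ℕ) : W →* G :=
  MonoidHom.mk' (fun x => (⟦⟨n, x⟩⟧ : DirectLimit (fun _ : ℕ => W) conn))
    fun x y => (DirectLimit.mul_def (f := conn) n x y).symm

theorem emb_injective (n : ℕ) : Function.Injective (emb n) :=
  DirectLimit.mk_injective conn (fun _ _ _ => phis_injective _) n

theorem emb_phis {n m : ℕ} (h : n ≤ m) (g : W) : emb m (phis (m - n) g) = emb n g :=
  DirectLimit.mk_apply (F := fun _ : ℕ => W) (f := conn) n m g h

theorem exists_emb (g : G) : ∃ n x, g = emb n x := DirectLimit.exists_eq_mk conn g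

theorem emb_succ (n : ℕ) (g : W) : emb n g = emb (n + 1) (phi g) := by
  rw [← emb_phis (Nat.le_succ n) g, show n + 1 - n = 1 by omega]
  rfl

theorem emb_range_mono {n m : ℕ} (h : n ≤ m) {g : G} (hg : g ∈ (emb n).range) :
    g ∈ (emb m).range := by
  obtain ⟨x, rfl⟩ := hg
  exact ⟨_, emb_phis h x⟩

theorem exists_level (s : Finset G) : ∃ n, ∀ g ∈ s, g ∈ (emb n).range := by
  classical
  induction s using Finset.induction_on with
  | empty => exact ⟨0, by simp⟩
  | insert a s _ ih =>
    obtain ⟨n, hn⟩ := ih
    obtain ⟨m, x, rfl⟩ := exists_emb a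
    refine ⟨max n m, fun g hg => ?_⟩
    rcases Finset.mem_insert.1 hg with rfl | hg
    · exact emb_range_mono (le_max_right _ _) ⟨x, rfl⟩
    · exact emb_range_mono (le_max_left _ _) (hn g hg)

theorem G_torsionFree (g : G) (k : ℕ) (hk : k ≠ 0) (h : g ^ k = 1) : g = 1 := by
  obtain ⟨n, x, rfl⟩ := exists_emb g
  rw [← map_pow, ← map_one (emb n)] at h
  rw [(pow_eq_one_iff_left hk).1 (emb_injective n h), map_one]

/-- The homomorphism of level `n` to the reals. -/
def th (n : ℕ) : W →* Multiplicative ℝ :=
  FreeGroup.lift fun _ => Multiplicative.ofAdd ((1 / 4 : ℝ) ^ n)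

theorem th_phi (n : ℕ) (g : W) : th (n + 1) (phi g) = th n g := by
  have : (th (n + 1)).comp phi = th n := by
    ext s
    simp only [MonoidHom.comp_apply, phi_of, map_mul, th, FreeGroup.lift_apply_of, toAdd_mul,
      toAdd_ofAdd]
    ring
  exact DFunLike.congr_fun this g

theorem th_phis (n k : ℕ) (g : W) : th (n + k) (phis k g) = th n g := by
  induction k with
  | zero => rfl
  | succ k ih => exact (th_phi (n + k) _).trans ih

theorem th_compat (i j : ℕ) (h : i ≤ j) (x : W) : th i x = th j (conn i j h x) := by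
  rw [conn, ← th_phis i (j - i) x, show i + (j - i) = j by omega]

/-- The homomorphism to the reals sending both generators of level `n` to `4⁻ⁿ`. -/
def theta : G →* Multiplicative ℝ :=
  MonoidHom.mk' (DirectLimit.lift conn (fun n x => th n x) th_compat)
    fun x y => DirectLimit.lift_mul th th_compat x y

theorem theta_emb (n : ℕ) (s : Bool) :
    theta (emb n (FreeGroup.of s)) = Multiplicative.ofAdd ((1 / 4 : ℝ) ^ n) := by
  show th n (FreeGroup.of s) = _
  rw [th, FreeGroup.lift_apply_of]

end Vale.Agent.P189
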