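import Vale.Agent.P189.Defs
import Vale.Agent.P189.Word
import Vale.Agent.P189.Gap

/-!
The two actions, and the finiteness of the cost of the second one.
-/

open MeasureTheory
open scoped ENNReal

noncomputable section

namespace Vale.Agent.P189

open Vale.Agent.P090

theorem PmpAction.act_inv {Γ : Type} [Group Γ] (α : PmpAction Γ) (x : α.X) (g : Γ) :
    α.act (α.act x g) g⁻¹ = x := by rw [α.act_mul, mul_inv_cancel, α.act_one]

theorem PmpAction.act_inv' {Γ : Type} [Group Γ] (α : PmpAction Γ) (x : α.X) (g : Γ) :
    α.act (α.act x g⁻¹) g = x := by rw [α.act_mul, inv_mul_cancel, α.act_one]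

theorem Graphing.chain_symm {Γ : Type} [Group Γ] {α : PmpAction Γ} (Φ : Graphing α) {x y : α.X}
    (h : Relation.ReflTransGen Φ.Step x y) : Relation.ReflTransGen Φ.Step y x := by
  induction h with
  | refl => exact .refl
  | tail _ hs ih =>
    obtain ⟨i, hi⟩ := hs
    exact .head ⟨i, hi.symm⟩ ih

/-- The graphing given by restrictions of group elements. -/
def restrictGraphing {Γ : Type} [Group Γ] (α : PmpAction Γ) {ι : Type} [Countable ι] (g : ι → Γ)
    (A : ι → Set α.X) (hA : ∀ i, MeasurableSet (A i)) : Graphing α where
  ι := ι
  countable := inferInstance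
  dom := A
  cod i := (fun x => α.act x (g i)⁻¹) ⁻¹' A i
  map i x := α.act x (g i)
  measurableSet_dom := hA
  measurableSet_cod i := (α.preserving _).measurable (hA i)
  bijOn i := by
    refine ⟨fun x hx => by simpa [α.act_inv] using hx, fun x _ y _ h => ?_, fun y hy => ?_⟩
    · have := congrArg (fun z => α.act z (g i)⁻¹) h
      simpa [α.act_inv] using this
    · exact ⟨_, hy, α.act_inv' y _⟩
  preserving i := by
    have := (α.preserving (g i)).restrict_preimage ((α.preserving (g i)⁻¹).measurable (hA i))
    rwa [show (fun x => α.act x (g i)) ⁻¹' ((fun x => α.act x (g i)⁻¹) ⁻¹' A i) = A i by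
      ext x; simp [α.act_inv]] at this
  mem_orbit i x _ := ⟨g i, rfl⟩

instance : Infinite G := Infinite.of_injective _ (emb_injective 0)

/-- The Bernoulli action. -/
def badAction : PmpAction G where
  X := G → Bool
  μ := bern G
  act := sh
  act_one x := by ext; simp [sh]
  act_mul x g h := by ext; simp [sh, mul_assoc]
  preserving := sh_mp

theorem badAction_free : badAction.EssFree := fun g hg => sh_free g hg

instance : IsProbabilityMeasure (volume : Measure UnitAddCircle) := ⟨UnitAddCircle.measure_univ⟩

/-- The product of the Bernoulli action with a rotation action. -/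
def goodAction : PmpAction G where
  X := (G → Bool) × UnitAddCircle
  μ := (bern G).prod volume
  act p g := (sh p.1 g, p.2 + ((theta g).toAdd : ℝ))
  act_one x := by ext <;> simp [sh]
  act_mul x g h := by ext <;> simp [sh, mul_assoc, add_assoc]
  preserving g := (sh_mp g).prod (measurePreserving_add_right volume _)

theorem goodAction_free : goodAction.EssFree := by
  intro g hg
  have h : {x : (G → Bool) × UnitAddCircle | goodAction.act x g = x} ⊆
      {ω | sh ω g = ω} ×ˢ Set.univ := fun x hx => ⟨congrArg Prod.fst hx, trivial⟩
  refine measure_mono_null h ?_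
  show (bern G).prod volume _ = 0
  rw [Measure.prod_prod, sh_free g hg, zero_mul]

/-- The cheap graphing. -/
def goodGraphing : Graphing goodAction :=
  restrictGraphing goodAction (fun i : ℕ × Bool => emb i.1 (FreeGroup.of i.2))
    (fun i => Set.univ ×ˢ Metric.closedBall (0 : UnitAddCircle) (3 * (1 / 4) ^ i.1))
    fun _ => MeasurableSet.univ.prod Metric.isClosed_closedBall.measurableSet

theorem goodGraphing_cost : goodGraphing.total < ⊤ := by
  have h1 : ∀ i : ℕ × Bool, goodAction.μ (goodGraphing.dom i) ≤
      ENNReal.ofReal (6 * (1 / 4) ^ i.1) := by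
    intro i
    show (bern G).prod volume (Set.univ ×ˢ Metric.closedBall (0 : UnitAddCircle) _) ≤ _
    rw [Measure.prod_prod, measure_univ, one_mul, AddCircle.volume_closedBall]
    exact ENNReal.ofReal_le_ofReal ((min_le_right _ _).trans (le_of_eq (by ring)))
  refine (ENNReal.tsum_le_tsum h1).trans_lt (Summable.tsum_ofReal_lt_top ?_)
  have h2 : Summable fun n : ℕ => (6 : ℝ) * (1 / 4) ^ n :=
    (summable_geometric_of_lt_one (by norm_num) (by norm_num)).mul_left _
  rw [summable_prod_of_nonneg (fun _ => by positivity)]
  refine ⟨fun _ => (hasSum_fintype _).summable, ?_⟩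
  simpa using h2.mul_left 2

theorem good_step (n : ℕ) (s : Bool) (x : G → Bool) (t : ℝ) (h0 : 0 ≤ t)
    (ht : t ≤ 3 * (1 / 4) ^ n) : Relation.ReflTransGen goodGraphing.Step (x, (t : UnitAddCircle))
      (goodAction.act (x, (t : UnitAddCircle)) (emb n (FreeGroup.of s))) := by
  refine .single ⟨(n, s), Or.inl ⟨⟨trivial, ?_⟩, rfl⟩⟩
  rw [mem_closedBall_zero_iff]
  exact QuotientAddGroup.norm_mk_le_norm.trans (by rwa [Real.norm_eq_abs, abs_of_nonneg h0])

theorem good_level (n : ℕ) : ∀ (s : Bool) (p : goodAction.X),
    Relation.ReflTransGen goodGraphing.Step p (goodAction.act p (emb n (FreeGroup.of s))) := by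
  induction n with
  | zero =>
    rintro s ⟨x, z⟩
    obtain ⟨t, ht, rfl⟩ := AddCircle.eq_coe_Ico z
    exact good_step 0 s x t ht.1 (by linarith [ht.2])
  | succ n ih =>
    set a : ℝ := (1 / 4) ^ (n + 1) with ha
    have ha0 : 0 < a := by positivity
    have key : ∀ (N : ℕ) (t : ℝ), 0 ≤ t → t ≤ N * a → ∀ (s : Bool) (x : G → Bool),
        Relation.ReflTransGen goodGraphing.Step (x, (t : UnitAddCircle))
          (goodAction.act (x, (t : UnitAddCircle)) (emb (n + 1) (FreeGroup.of s))) := by
      intro N
      induction N with
      | zero => exact fun t h0 ht s x => good_step _ s x t h0 (by simp at ht; linarith)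
      | succ N ihN =>
        intro t h0 ht s x
        by_cases h3 : t ≤ 3 * a
        · exact good_step _ s x t h0 h3
        push_cast at ht
        set e : Bool → G := fun s => emb (n + 1) (FreeGroup.of s) with he
        have hact : ∀ (y : G → Bool) (u : ℝ) (s : Bool),
            goodAction.act (y, (u : UnitAddCircle)) (e s) =
              (sh y (e s), ((u + a : ℝ) : UnitAddCircle)) := by
          intro y u s
          show (sh y (e s), (u : UnitAddCircle) + ((theta (e s)).toAdd : ℝ)) = _
          rw [he, theta_emb]
          rfl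
        set y := sh x (e s * e s * e (!s))⁻¹ with hy
        have c1 := ihN (t - 3 * a) (by linarith) (by linarith) s y
        rw [hact] at c1
        have c2 := ihN (t - 3 * a + a) (by linarith) (by linarith) s (sh y (e s))
        rw [hact] at c2
        have c3 := ihN (t - 3 * a + a + a) (by linarith) (by linarith) (!s)
          (sh (sh y (e s)) (e s))
        rw [hact] at c3
        have c4 := ih s (y, ((t - 3 * a : ℝ) : UnitAddCircle))
        have e1 : sh (sh (sh y (e s)) (e s)) (e (!s)) = x := by
          ext γ
          simp [hy, sh, mul_assoc]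
        rw [e1, show t - 3 * a + a + a + a = t by ring] at c3
        have e2 : goodAction.act (y, ((t - 3 * a : ℝ) : UnitAddCircle)) (emb n (FreeGroup.of s)) =
            goodAction.act (x, (t : UnitAddCircle)) (e s) := by
          have hm : ∀ (p : (G → Bool) × UnitAddCircle) (g h : G), goodAction.act p (g * h) =
              goodAction.act (goodAction.act p g) h := fun p g h => (goodAction.act_mul p g h).symm
          rw [emb_succ, phi_of, map_mul, map_mul, map_mul, hm, hm, hm, hact, hact, hact, e1,
            show t - 3 * a + a + a + a = t by ring]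
        rw [e2] at c4
        exact (goodGraphing.chain_symm ((c1.trans c2).trans c3)).trans c4
    rintro s ⟨x, z⟩
    obtain ⟨t, ht, rfl⟩ := AddCircle.eq_coe_Ico z
    obtain ⟨N, hN⟩ := exists_nat_ge (t / a)
    exact key N t ht.1 ((div_le_iff₀ ha0).1 hN) s x

theorem goodGraphing_generates : goodGraphing.Generates := by
  refine Filter.Eventually.of_forall fun p g => ?_
  obtain ⟨n, w, rfl⟩ := exists_emb g
  induction w using FreeGroup.induction_on generalizing p with
  | C1 => rw [map_one, goodAction.act_one]
  | of s => exact good_level n s p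
  | inv_of s ih =>
    have := ih (goodAction.act p (emb n (FreeGroup.of s))⁻¹)
    rw [goodAction.act_inv'] at this
    rw [map_inv]
    exact goodGraphing.chain_symm this
  | mul u v ihu ihv =>
    rw [map_mul, ← goodAction.act_mul]
    exact (ihu p).trans (ihv _)

theorem goodAction_cost : goodAction.cost < ⊤ :=
  (iInf₂_le goodGraphing goodGraphing_generates).trans_lt goodGraphing_cost

end Vale.Agent.P189
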