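import Vale.Agent.P189.Read
import Vale.Agent.P189.Good

/-!
The field of graphs given by two long loops and finitely many extra arcs.
-/

open MeasureTheory
open scoped ENNReal symmDiff

set_option linter.unusedSectionVars false

noncomputable section

namespace Vale.Agent.P189

open Vale.Agent.P090
open Classical

/-- Finitely many extra arcs, labelled by reduced words. -/
structure Arcs {Γ : Type} [Group Γ] (α : PmpAction Γ) (K : Type) where
  ρ : W →* Γ
  k : ℕ
  u : K → W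
  A₀ : K → Set α.X
  meas₀ : ∀ p, MeasurableSet (A₀ p)

namespace Arcs

variable {Γ : Type} [Group Γ] {α : PmpAction Γ} {K : Type} [Fintype K] (R : Arcs α K)

def L : Bool ⊕ K → ℕ
  | .inl _ => 4 ^ R.k
  | .inr p => (R.u p).toWord.length

def wd : Bool ⊕ K → ℕ → Ltr
  | .inl s, j => (xor s (tau j), true)
  | .inr p, j => (R.u p).toWord.getD j (true, true)

def A : Bool ⊕ K → Set α.X
  | .inl _ => Set.univ
  | .inr p => R.A₀ p

theorem meas : ∀ i, MeasurableSet (R.A i)
  | .inl _ => MeasurableSet.univ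
  | .inr p => R.meas₀ p

theorem red : ∀ i k, k + 1 < R.L i → R.wd i (k + 1) ≠ inv (R.wd i k)
  | .inl s, k, _ => by simp [wd, inv]
  | .inr p, k, h => by
    have h1 : FreeGroup.IsReduced (R.u p).toWord := FreeGroup.isReduced_toWord
    have h' : k + 1 < (R.u p).toWord.length := h
    have h2 := List.isChain_iff_getElem.1 h1 k h'
    simp only [wd, List.getD_eq_getElem _ _ h', List.getD_eq_getElem _ _ (by omega :
      k < (R.u p).toWord.length)]
    intro e
    rw [e] at h2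
    simp [inv] at h2

def word (i : Bool ⊕ K) (m : ℕ) : List Ltr := (List.range m).map (R.wd i)

theorem word_inr (p : K) : R.word (.inr p) (R.L (.inr p)) = (R.u p).toWord := by
  refine List.ext_getElem (by simp [word, L]) fun n h1 h2 => ?_
  simp [word, wd, h2]

theorem word_inl (s : Bool) (m : ℕ) : R.word (.inl s) m = wn s m := rfl

def g (i : Bool ⊕ K) (m : ℕ) : Γ := R.ρ (FreeGroup.mk (R.word i m))

theorem g_succ (i : Bool ⊕ K) (m : ℕ) : R.g i (m + 1) = R.g i m * R.ρ (ltr (R.wd i m)) := by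
  rw [g, g, word, List.range_succ, List.map_append, ← FreeGroup.mul_mk, map_mul]
  rfl

abbrev J : Type := Option {p : (Bool ⊕ K) × ℕ // p.2 < R.L p.1}

abbrev D : Type := {p : (Bool ⊕ K) × ℕ // p.2 < R.L p.1} × Bool

instance : Finite {p : (Bool ⊕ K) × ℕ // p.2 < R.L p.1} :=
  Finite.of_surjective (fun q : Σ i, Fin (R.L i) => ⟨(q.1, q.2), q.2.2⟩)
    fun p => ⟨⟨p.1.1, ⟨p.1.2, p.2⟩⟩, rfl⟩

instance : Fintype {p : (Bool ⊕ K) × ℕ // p.2 < R.L p.1} := Fintype.ofFinite _

def vtx (i : Bool ⊕ K) (m : ℕ) : R.J := if h : 0 < m ∧ m < R.L i then some ⟨(i, m), h.2⟩ else none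

theorem vtx_eq_none {i : Bool ⊕ K} {m : ℕ} : R.vtx i m = none ↔ m = 0 ∨ R.L i ≤ m := by
  unfold vtx
  split_ifs with h
  · simp only [false_iff]
    omega
  · simp only [true_iff]
    omega

theorem vtx_inj {i i' : Bool ⊕ K} {m m' : ℕ} (h : R.vtx i m = R.vtx i' m') (h0 : R.vtx i m ≠ none) :
    i = i' ∧ m = m' := by
  unfold vtx at h h0
  split_ifs at h h0
  · simpa using h
  · exact absurd rfl h0

/-- The index of the origin of a dart along its arc. -/
def ix (δ : R.D) : ℕ := if δ.2 then δ.1.1.2 else δ.1.1.2 + 1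

def drt (d : Ltr) (m : ℕ) : R.D :=
  (⟨(.inl d.1, if d.2 then min m (4 ^ R.k - 1) else 4 ^ R.k - 1 - m), by
    have : 0 < 4 ^ R.k := by positivity
    show _ < 4 ^ R.k
    split_ifs <;> omega⟩, d.2)

def lt (δ : R.D) : Ltr := if δ.2 then R.wd δ.1.1.1 δ.1.1.2 else inv (R.wd δ.1.1.1 δ.1.1.2)

theorem lt_drt_true (s : Bool) {m : ℕ} (h : m < 4 ^ R.k) :
    R.lt (R.drt (s, true) m) = (xor s (tau m), true) := by
  simp [lt, drt, wd, show min m (4 ^ R.k - 1) = m by omega]

theorem lt_drt_false (s : Bool) (m : ℕ) :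
    R.lt (R.drt (s, false) m) = (xor s (tau (4 ^ R.k - 1 - m)), false) := by
  simp [lt, drt, wd, inv]

/-- The field of graphs. -/
def setup : Setup α.X α.μ R.J R.D where
  mv d x := α.act x (R.ρ (ltr d))
  mv_mp d := α.preserving _
  mv_inv d x := by rw [ltr_inv, map_inv, α.act_inv]
  org δ := R.vtx δ.1.1.1 (R.ix δ)
  lt := R.lt
  rev δ := (δ.1, !δ.2)
  rev_rev δ := by simp
  lt_rev δ := by
    obtain ⟨p, b⟩ := δ
    cases b <;> simp [lt]
  pres δ := (fun x => α.act x (R.g δ.1.1.1 (R.ix δ))⁻¹) ⁻¹' R.A δ.1.1.1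
  pres_meas δ := (α.preserving _).measurable (R.meas _)
  pres_rev δ x h := by
    obtain ⟨p, b⟩ := δ
    cases b
    · simpa [lt, ix, α.act_mul, g_succ, ltr_inv] using h
    · simpa [lt, ix, α.act_mul, g_succ] using h
  base := none
  two δ x h ho := by
    obtain ⟨⟨⟨i, m⟩, hm⟩, b⟩ := δ
    rw [Ne, vtx_eq_none, not_or] at ho
    cases b
    · simp only [ix] at ho
      refine ⟨(⟨(i, m + 1), by simpa using ho.2⟩, true), h, rfl, ?_⟩
      exact R.red i m (by simpa using ho.2)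
    · simp only [ix] at ho
      obtain ⟨m, rfl⟩ : ∃ m', m = m' + 1 := ⟨m - 1, by simp at ho; omega⟩
      refine ⟨(⟨(i, m), by simp at hm ⊢; omega⟩, false), h, rfl, ?_⟩
      exact (R.red i m hm).symm
  len := 4 ^ R.k
  len_pos := by positivity
  drt := R.drt
  drt_pres d k x _ := trivial
  lt_drt_zero d := by
    obtain ⟨s, b⟩ := d
    cases b
    · rw [lt_drt_false, Nat.sub_zero, tau_last]
      simp
    · rw [lt_drt_true _ _ (by positivity), tau_zero]
      simp
  org_drt_zero d := by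
    obtain ⟨s, b⟩ := d
    have : 0 < 4 ^ R.k := by positivity
    rw [vtx_eq_none]
    cases b <;> simp [ix, drt, L]
    omega
  org_drt_succ d k h := by
    obtain ⟨s, b⟩ := d
    cases b <;> simp only [ix, drt] <;> congr 1 <;> simp <;> omega
  org_drt_ne d k h0 h := by
    obtain ⟨s, b⟩ := d
    rw [Ne, vtx_eq_none]
    cases b <;> simp [ix, drt, L] <;> omega
  rev_drt d k h := by
    obtain ⟨s, b⟩ := d
    cases b <;> simp [drt, inv]
    all_goals omega
  red d k h := by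
    obtain ⟨s, b⟩ := d
    cases b
    · simp [lt_drt_false, inv]
    · simp [lt_drt_true _ _ h, lt_drt_true _ _ (Nat.lt_of_succ_lt h), inv]
  border d e m h0 hm h := by
    obtain ⟨s, b⟩ := d
    obtain ⟨s', b'⟩ := e
    have h1 := h 0 h0
    cases b <;> cases b'
    · simp [lt_drt_false, inv] at h1
    · obtain ⟨e1, e2, -⟩ := border R.k m s' s h0 hm fun j hj => by
        have := h j hj
        rw [lt_drt_true _ _ (by omega), lt_drt_false,
          show 4 ^ R.k - 1 - (m - 1 - j) = 4 ^ R.k - m + j by omega] at this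
        exact congrArg Prod.fst this
      rw [lt_drt_true _ _ hm, e1, e2]
      simp [nxt]
    · obtain ⟨e1, -, e3⟩ := border R.k m s s' h0 hm fun j hj => by
        have := h (m - 1 - j) (by omega)
        rw [lt_drt_true _ _ (by omega), lt_drt_false,
          show 4 ^ R.k - 1 - (m - 1 - j) = 4 ^ R.k - m + j by omega,
          show m - 1 - (m - 1 - j) = j by omega] at this
        exact (congrArg Prod.fst this).symm
      rw [lt_drt_false, show 4 ^ R.k - 1 - m = 4 ^ R.k - m - 1 by omega, e3, e1]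
      simp [nxt]
    · rw [lt_drt_true _ _ (by omega), lt_drt_true _ _ (by omega)] at h1
      simp [inv] at h1

theorem energy_le : R.setup.energy (fun _ j => j) ≤ 2 * ∑ p, α.μ (R.A₀ p) := by
  set E : Finset R.D := Finset.univ.filter fun δ => R.setup.org δ = none ∧ δ.1.1.1.isRight with hE
  refine (R.setup.energy_init ?_ E ?_).trans ?_
  · intro j hj
    refine (Finset.card_le_card_of_injOn (t := Finset.univ) (fun δ : R.D => δ.2)
      (fun _ _ => Finset.mem_univ _) ?_).trans (by simp)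
    rintro ⟨⟨⟨i, m⟩, hm⟩, b⟩ h1 ⟨⟨⟨i', m'⟩, hm'⟩, b'⟩ h2 rfl
    have h1' : R.setup.org (⟨(i, m), hm⟩, b) = j := by simpa using h1
    have h2' : R.setup.org (⟨(i', m'), hm'⟩, b) = j := by simpa using h2
    obtain ⟨e1, e2⟩ := R.vtx_inj (h1'.trans h2'.symm) (fun e => hj (h1'.symm.trans e))
    cases b <;> simp_all [ix]
  · rintro ⟨⟨⟨i, m⟩, hm⟩, b⟩ h
    cases i with
    | inr p => exact Or.inl (Finset.mem_filter.2 ⟨Finset.mem_univ _, h, rfl⟩)
    | inl s =>
      refine Or.inr ⟨(s, b), ?_⟩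
      have h' : R.ix (⟨(.inl s, m), hm⟩, b) = 0 ∨ 4 ^ R.k ≤ R.ix (⟨(.inl s, m), hm⟩, b) :=
        R.vtx_eq_none.1 h
      have hm' : m < 4 ^ R.k := hm
      show _ = R.drt (s, b) 0
      cases b <;> simp [drt, ix] at h' ⊢ <;> omega
  · have h1 : ∀ δ, α.μ (R.setup.pres δ) = α.μ (R.A δ.1.1.1) := fun δ =>
      (α.preserving _).measure_preimage (R.meas _).nullMeasurableSet
    simp only [h1]
    have h2 : Set.InjOn (fun δ : R.D => (δ.1.1.1, δ.2)) E := by
      rintro ⟨⟨⟨i, m⟩, hm⟩, b⟩ h1 ⟨⟨⟨i', m'⟩, hm'⟩, b'⟩ h2 e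
      obtain ⟨rfl, rfl⟩ : i = i' ∧ b = b' := Prod.ext_iff.1 e
      have h1' := R.vtx_eq_none.1 (Finset.mem_filter.1 h1).2.1
      have h2' := R.vtx_eq_none.1 (Finset.mem_filter.1 h2).2.1
      cases b <;> simp [ix] at h1' h2' hm hm' ⊢ <;> omega
    rw [← Finset.sum_image (f := fun q : (Bool ⊕ K) × Bool => α.μ (R.A q.1)) h2]
    have h3 : E.image (fun δ : R.D => (δ.1.1.1, δ.2)) ⊆
        (Finset.univ.map Function.Embedding.inr) ×ˢ Finset.univ := by
      intro q hq
      obtain ⟨δ, hδ, rfl⟩ := Finset.mem_image.1 hq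
      obtain ⟨p, hp⟩ := Sum.isRight_iff.1 (Finset.mem_filter.1 hδ).2.2
      simp [hp]
    refine (Finset.sum_le_sum_of_subset h3).trans (le_of_eq ?_)
    rw [Finset.sum_product]
    simp [A, Finset.mul_sum]

theorem mvs_eq (w : List Ltr) (x : α.X) :
    R.setup.mvs w x = α.act x (R.ρ (FreeGroup.mk w)) := by
  induction w generalizing x with
  | nil => rw [← FreeGroup.one_eq_mk, map_one, α.act_one]; rfl
  | cons d w ih =>
    rw [Setup.mvs, ih, ← ltr_mul_mk, map_mul, ← α.act_mul]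
    rfl

theorem rd_arc (i : Bool ⊕ K) {x : α.X} (hx : x ∈ R.A i) {m : ℕ} (hm : m ≤ R.L i) :
    R.setup.Rd x none (R.word i m) (R.vtx i m) := by
  induction m with
  | zero => exact .nil (R.vtx_eq_none.2 (Or.inl rfl) ▸ .refl _ _)
  | succ m ih =>
    rw [word, List.range_succ, List.map_append, ← word]
    refine (ih (by omega)).append ?_
    refine Setup.Rd.cons (S := R.setup) (⟨(i, m), hm⟩, true) ?_ (.refl _ _) (.nil (.refl _ _))
    rw [mvs_eq]
    show α.act (α.act x (R.g i m)) (R.g i m)⁻¹ ∈ R.A i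
    rwa [α.act_inv]

theorem rdG_arc (i : Bool ⊕ K) {x : α.X} (hx : x ∈ R.A i) :
    R.setup.RdG x (FreeGroup.mk (R.word i (R.L i))) := by
  have := R.rd_arc i hx le_rfl
  rw [R.vtx_eq_none.2 (Or.inr le_rfl)] at this
  exact ⟨_, rfl, this⟩

theorem rdG_extra (p : K) {x : α.X} (hx : x ∈ R.A₀ p) : R.setup.RdG x (R.u p) := by
  have := R.rdG_arc (.inr p) hx
  rwa [word_inr, FreeGroup.mk_toWord] at this

theorem rdG_one (x : α.X) : R.setup.RdG x 1 := ⟨[], rfl, .nil (.refl _ _)⟩

theorem rdG_mul {x : α.X} {g h : W} (hg : R.setup.RdG x g)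
    (hh : R.setup.RdG (α.act x (R.ρ g)) h) : R.setup.RdG x (g * h) := by
  obtain ⟨w, rfl, h1⟩ := hg
  obtain ⟨w', rfl, h2⟩ := hh
  exact ⟨w ++ w', FreeGroup.mul_mk.symm, h1.append (by rwa [mvs_eq])⟩

theorem rdG_inv {x : α.X} {g : W} (hg : R.setup.RdG x g) :
    R.setup.RdG (α.act x (R.ρ g)) g⁻¹ := by
  obtain ⟨w, rfl, h1⟩ := hg
  exact ⟨FreeGroup.invRev w, FreeGroup.inv_mk.symm, by simpa [mvs_eq] using h1.invRev⟩

theorem rdG_phis (w : W) (x : α.X) : R.setup.RdG x (phis R.k w) := by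
  induction w using FreeGroup.induction_on generalizing x with
  | C1 => rw [map_one]; exact R.rdG_one x
  | of s => rw [phis_of]; exact R.rdG_arc (.inl s) trivial
  | inv_of s ih =>
    have := R.rdG_inv (ih (α.act x (R.ρ (phis R.k (FreeGroup.of s)))⁻¹))
    rwa [α.act_inv', ← map_inv] at this
  | mul u v ihu ihv => rw [map_mul]; exact R.rdG_mul (ihu x) (ihv _)

theorem pw_true (s : Bool) {m : ℕ} (hm : m ≤ 4 ^ R.k) : R.setup.pw (s, true) m = wn s m := by
  refine List.map_congr_left fun j hj => ?_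
  exact R.lt_drt_true s (by have := List.mem_range.1 hj; omega)

theorem P_len (d : Ltr) (x : α.X) :
    R.setup.P d R.setup.len x = α.act x (R.ρ (phis R.k (ltr d))) := by
  have h : ∀ s x, R.setup.P (s, true) R.setup.len x =
      α.act x (R.ρ (phis R.k (ltr (s, true)))) := by
    intro s x
    rw [← Setup.mvs_pw, mvs_eq, R.pw_true s (m := R.setup.len) le_rfl, show ltr (s, true) = FreeGroup.of s from rfl,
      phis_of]
    rfl
  obtain ⟨s, b⟩ := d
  cases b
  · have := R.setup.P_inv (s, true) (α.act x (R.ρ (phis R.k (ltr (s, true))))⁻¹) le_rfl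
    rw [h, α.act_inv', Nat.sub_self] at this
    rw [show ltr (s, false) = (ltr (s, true))⁻¹ from ltr_inv (s, true), map_inv, map_inv]
    exact this
  · exact h s x

theorem main (hk : 0 < R.k) (hA : ∑ p, α.μ (R.A₀ p) ≤ 1 / 6000)
    (hg : ∀ s : Set α.X, MeasurableSet s → α.μ s * α.μ sᶜ ≤
      ∑ d : Ltr, α.μ (s ∆ ((fun x => α.act x (R.ρ (phis R.k (ltr d)))) ⁻¹' s)))
    (B : ℕ → Set α.X) (hBm : ∀ n, MeasurableSet (B n)) (hB : ∀ x, ∃ n, x ∈ B n)
    (hBs : ∀ n, (4 ^ R.k : ℕ) * α.μ (B n) ≤ 1 / 2) :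
    α.μ {x | R.setup.RdG x (phis (R.k - 1) (FreeGroup.of true))} ≤ 1 / 4 := by
  have h1 : R.setup.Gap := by
    intro s hs
    have : ∀ d, R.setup.P d R.setup.len = fun x => α.act x (R.ρ (phis R.k (ltr d))) :=
      fun d => funext (R.P_len d)
    simp only [this]
    exact hg s hs
  have h2 : R.setup.energy (fun _ j => j) ≤ 1 / 3000 := by
    refine R.energy_le.trans ((mul_le_mul_right hA 2).trans (le_of_eq ?_))
    rw [← ENNReal.toReal_eq_toReal_iff' (by finiteness) (by finiteness)]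
    simp only [ENNReal.toReal_mul, ENNReal.toReal_div, ENNReal.toReal_one, ENNReal.toReal_ofNat]
    norm_num
  refine (measure_mono ?_).trans (R.setup.main h1 h2 B hBm hB hBs)
  intro x hx
  have h3 : 4 ^ (R.k - 1) < 4 ^ R.k := Nat.pow_lt_pow_right (by norm_num) (by omega)
  refine ⟨4 ^ (R.k - 1), by positivity, h3, Setup.RdG.fold h3.le ?_⟩
  rw [R.pw_true true h3.le, ← phis_of]
  exact hx

end Arcs

end Vale.Agent.P189
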