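import Vale.Agent.P189.Fold

/-!
Measured Stallings folding: folding steps, the energy, and the dichotomy given by a spectral gap.
-/

open MeasureTheory
open scoped ENNReal symmDiff

set_option linter.unusedSectionVars false

noncomputable section

namespace Vale.Agent.P189

open Vale.Agent.P090 (Ltr inv inv_inv')
open Classical

section Meas

variable {X : Type} [MeasurableSpace X] {A B : Type}

/-- All fibres are measurable. -/
def Meas (f : X → A) : Prop := ∀ a, MeasurableSet {x | f x = a}

theorem Meas.set [Countable A] {f : X → A} (hf : Meas f) (Q : A → Prop) :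
    MeasurableSet {x | Q (f x)} := by
  have : {x | Q (f x)} = ⋃ a ∈ {a | Q a}, {x | f x = a} := by
    ext x
    simp
  rw [this]
  exact MeasurableSet.biUnion (Set.to_countable _) fun a _ => hf a

theorem Meas.comp [Countable A] {f : X → A} (hf : Meas f) (F : A → B) :
    Meas fun x => F (f x) := fun b => hf.set fun a => F a = b

theorem Meas.pair {f : X → A} {g : X → B} (hf : Meas f) (hg : Meas g) :
    Meas fun x => (f x, g x) := by
  rintro ⟨a, b⟩
  have : {x | (f x, g x) = (a, b)} = {x | f x = a} ∩ {x | g x = b} := by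
    ext x
    simp
  rw [this]
  exact (hf a).inter (hg b)

theorem Meas.pi {ι : Type} [Countable ι] {f : X → ι → A} (hf : ∀ i, Meas fun x => f x i) :
    Meas f := by
  intro a
  have : {x | f x = a} = ⋂ i, {x | f x i = a i} := by
    ext x
    simp [funext_iff]
  rw [this]
  exact MeasurableSet.iInter fun i => hf i (a i)

theorem Meas.pre {f : X → A} (hf : Meas f) {g : X → X} (hg : Measurable g) :
    Meas fun x => f (g x) := fun a => hg (hf a)

theorem Meas.mem {s : Set X} (hs : MeasurableSet s) : Meas fun x => x ∈ s := by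
  intro p
  by_cases hp : p
  · have : {x | (x ∈ s) = p} = s := by
      ext x
      simp [hp]
    rw [this]
    exact hs
  · have : {x | (x ∈ s) = p} = sᶜ := by
      ext x
      simp [hp]
    rw [this]
    exact hs.compl

theorem Meas.measurable [Countable A] {f : X → A} (hf : Meas f) (F : A → ℝ≥0∞) :
    Measurable fun x => F (f x) := fun s _ => hf.set fun a => F a ∈ s

theorem Meas.const (a : A) : Meas fun _ : X => a := fun b => by
  by_cases h : a = b <;> simp [h]

end Meas

theorem card_image_add_le {α β : Type} [DecidableEq α] [DecidableEq β] (s R : Finset α) (g : α → β) (hR : R ⊆ s)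
    (h : ∀ b ∈ R, ∃ a ∈ s, a ∉ R ∧ g a = g b) : (s.image g).card + R.card ≤ s.card := by
  have h1 : s.image g ⊆ (s \ R).image g := by
    intro y hy
    obtain ⟨b, hb, rfl⟩ := Finset.mem_image.1 hy
    by_cases hbR : b ∈ R
    · obtain ⟨a, ha, haR, e⟩ := h b hbR
      exact Finset.mem_image.2 ⟨a, Finset.mem_sdiff.2 ⟨ha, haR⟩, e⟩
    · exact Finset.mem_image_of_mem _ (Finset.mem_sdiff.2 ⟨hb, hbR⟩)
  have h2 := (Finset.card_le_card h1).trans Finset.card_image_le
  have h3 := Finset.card_sdiff_add_card_eq_card hR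
  omega

namespace Setup

variable {X : Type} [MeasurableSpace X] {μ : Measure X} {J D : Type} [Fintype J] [Fintype D]
variable (S : Setup X μ J D)

theorem meas_Pr : Meas S.Pr :=
  (Meas.pi fun δ => Meas.mem (S.pres_meas δ)).comp
    fun p : D → Prop => Finset.univ.filter fun δ => p δ

variable {c : X → J → J}

theorem meas_loc (hc : Meas c) : Meas fun x => (S.Pr x, c x, fun d => c (S.mv d x)) :=
  S.meas_Pr.pair (hc.pair (Meas.pi fun d => hc.pre (S.mv_mp d).measurable))

theorem meas_T (hc : Meas c) : Meas (S.T c) :=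
  (S.meas_loc hc).comp fun l : Finset D × (J → J) × (Ltr → J → J) =>
    l.1.image fun δ => (S.lt δ, l.2.1 (S.org δ), l.2.2 (S.lt δ) (S.ter δ))

theorem meas_V (hc : Meas c) : Meas (S.V c) :=
  (S.meas_Pr.pair hc).comp fun l : Finset D × (J → J) => l.1.image fun δ => l.2 (S.org δ)

theorem meas_xi (hc : Meas c) : Meas (S.xi c) :=
  ((S.meas_T hc).pair ((S.meas_V hc).pair hc)).comp
    fun l : Finset (Ltr × J × J) × Finset J × (J → J) =>
      ∑ a ∈ l.2.1, ((l.1.filter fun t => t.2.1 = a).card - if a = l.2.2 S.base then 4 else 2)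

theorem meas_Dfc (hc : Meas c) (j : J) : MeasurableSet {x | S.Dfc c x (c x j)} :=
  ((S.meas_T hc).pair hc).set fun l : Finset (Ltr × J × J) × (J → J) =>
    (if l.2 j = l.2 S.base then 4 else 2) < (l.1.filter fun t => t.2.1 = l.2 j).card

theorem meas_Clean (hc : Meas c) (j : J) : MeasurableSet {x | S.Clean c x (c x j)} :=
  ((S.meas_T hc).pair hc).set fun l : Finset (Ltr × J × J) × (J → J) =>
    l.2 j ≠ l.2 S.base ∧ (l.1.filter fun t => t.2.1 = l.2 j).card ≤ 2

theorem meas_DefAt (hc : Meas c) (d : Ltr) (k : ℕ) : MeasurableSet {x | S.DefAt c d k x} := by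
  refine ((S.P_mp d k).measurable (S.meas_Dfc hc (S.vx d k))).inter ?_
  have : {x | ∀ i, 0 < i → i < k → S.Clean c (S.P d i x) (c (S.P d i x) (S.vx d i))} =
      ⋂ i, ⋂ (_ : 0 < i), ⋂ (_ : i < k), S.P d i ⁻¹' {y | S.Clean c y (c y (S.vx d i))} := by
    ext x
    simp
  refine (congrArg MeasurableSet this).mpr ?_
  exact MeasurableSet.iInter fun i => MeasurableSet.iInter fun _ => MeasurableSet.iInter fun _ =>
    (S.P_mp d i).measurable (S.meas_Clean hc _)

theorem meas_Low (hc : Meas c) (d : Ltr) : MeasurableSet {x | S.Low c d x} := by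
  have : {x | S.Low c d x} = ⋃ k, ⋃ (_ : 0 < k), ⋃ (_ : k < S.len),
      S.P d k ⁻¹' {y | c y (S.vx d k) = c y S.base} := by
    ext x
    simp only [Low, Set.mem_iUnion, Set.mem_ofPred_eq, Set.mem_preimage, exists_prop]
  rw [this]
  exact MeasurableSet.iUnion fun k => MeasurableSet.iUnion fun _ => MeasurableSet.iUnion fun _ =>
    (S.P_mp d k).measurable (hc.set fun l => l (S.vx d k) = l S.base)

theorem meas_Def (hc : Meas c) (d : Ltr) : MeasurableSet {x | S.Def c d x} := by
  have : {x | S.Def c d x} = ⋃ k, ⋃ (_ : 0 < k), ⋃ (_ : k < S.len), {x | S.DefAt c d k x} := by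
    ext x
    simp only [Def, Set.mem_iUnion, Set.mem_ofPred_eq, exists_prop]
  rw [this]
  exact MeasurableSet.iUnion fun k => MeasurableSet.iUnion fun _ => MeasurableSet.iUnion fun _ =>
    S.meas_DefAt hc d k

/-- The inverse of `P d k`. -/
def Q (d : Ltr) : ℕ → X → X
  | 0, y => y
  | k + 1, y => Q d k (S.mv (inv (S.lt (S.drt d k))) y)

theorem Q_mp (d : Ltr) (k : ℕ) : MeasurePreserving (S.Q d k) μ μ := by
  induction k with
  | zero => exact MeasurePreserving.id μ
  | succ k ih => exact ih.comp (S.mv_mp _)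

theorem P_Q (d : Ltr) (k : ℕ) (y : X) : S.P d k (S.Q d k y) = y := by
  induction k generalizing y with
  | zero => rfl
  | succ k ih => rw [P, Q, ih, S.mv_inv']

variable (c) in
/-- The energy of a state. -/
def energy : ℝ≥0∞ := ∫⁻ x, (S.xi c x : ℝ≥0∞) ∂μ

theorem measure_Def (hc : Meas c) (d : Ltr) : μ {x | S.Def c d x} ≤ 5 * S.energy c := by
  have h1 : {x | S.Def c d x} ⊆ ⋃ k ∈ Finset.Ioo 0 S.len, {x | S.DefAt c d k x} := by
    rintro x ⟨k, h0, hk, h⟩
    simp only [Set.mem_iUnion]
    exact ⟨k, Finset.mem_Ioo.2 ⟨h0, hk⟩, h⟩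
  have hm : ∀ k, MeasurableSet (S.Q d k ⁻¹' {x | S.DefAt c d k x}) :=
    fun k => (S.Q_mp d k).measurable (S.meas_DefAt hc d k)
  calc μ {x | S.Def c d x} ≤ ∑ k ∈ Finset.Ioo 0 S.len, μ {x | S.DefAt c d k x} :=
        (measure_mono h1).trans (measure_biUnion_finset_le _ _)
    _ = ∑ k ∈ Finset.Ioo 0 S.len,
          ∫⁻ y, (S.Q d k ⁻¹' {x | S.DefAt c d k x}).indicator 1 y ∂μ := by
        refine Finset.sum_congr rfl fun k _ => ?_
        rw [lintegral_indicator_one (hm k),
          (S.Q_mp d k).measure_preimage (S.meas_DefAt hc d k).nullMeasurableSet]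
    _ = ∫⁻ y, ∑ k ∈ Finset.Ioo 0 S.len,
          (S.Q d k ⁻¹' {x | S.DefAt c d k x}).indicator 1 y ∂μ := by
        rw [lintegral_finsetSum]
        exact fun k _ => measurable_one.indicator (hm k)
    _ ≤ ∫⁻ y, 5 * (S.xi c y : ℝ≥0∞) ∂μ := by
        refine lintegral_mono fun y => ?_
        have h2 : ((Finset.Ioo 0 S.len).filter fun k => S.DefAt c d k (S.Q d k y)).card ≤
            (S.bad c y).card := by
          refine Finset.card_le_card_of_injOn
            (fun k => S.tr c y (S.drt (inv d) (S.len - k))) ?_ ?_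
          · intro k hk
            obtain ⟨hk1, hk2⟩ := Finset.mem_filter.1 hk
            obtain ⟨h0, hl⟩ := Finset.mem_Ioo.1 hk1
            have := S.defAt_bad c h0 hl hk2
            rwa [S.P_Q] at this
          · intro k hk k' hk' e
            obtain ⟨hk1, hk2⟩ := Finset.mem_filter.1 hk
            obtain ⟨h0, hl⟩ := Finset.mem_Ioo.1 hk1
            obtain ⟨hk1', hk2'⟩ := Finset.mem_filter.1 hk'
            obtain ⟨h0', hl'⟩ := Finset.mem_Ioo.1 hk1'
            rcases lt_trichotomy k k' with h | h | h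
            · have := S.defAt_inj c (x := S.Q d k y) h0 h hl' hk2' (by rw [S.P_Q, S.P_Q])
              rw [S.P_Q] at this
              exact absurd e.symm this
            · exact h
            · have := S.defAt_inj c (x := S.Q d k' y) h0' h hl hk2 (by rw [S.P_Q, S.P_Q])
              rw [S.P_Q] at this
              exact absurd e this
        have h3 := h2.trans (S.card_bad c y)
        have h4 : ∑ k ∈ Finset.Ioo 0 S.len,
            (S.Q d k ⁻¹' {x | S.DefAt c d k x}).indicator (1 : X → ℝ≥0∞) y =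
            (((Finset.Ioo 0 S.len).filter fun k => S.DefAt c d k (S.Q d k y)).card : ℝ≥0∞) := by
          rw [Finset.card_filter, Nat.cast_sum]
          refine Finset.sum_congr rfl fun k _ => ?_
          by_cases h : S.DefAt c d k (S.Q d k y) <;> simp [Set.indicator, h]
        show _ ≤ 5 * (S.xi c y : ℝ≥0∞)
        rw [h4]
        exact_mod_cast h3
    _ = 5 * S.energy c := by
        rw [lintegral_const_mul _ ((S.meas_xi hc).measurable fun n : ℕ => (n : ℝ≥0∞)), energy]

theorem measure_baseDef (hc : Meas c) : μ {x | S.Dfc c x (c x S.base)} ≤ S.energy c := by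
  rw [← lintegral_indicator_one (S.meas_Dfc hc _)]
  refine lintegral_mono fun y => ?_
  by_cases h : S.Dfc c y (c y S.base)
  · have := S.one_le_xi c h
    simp only [Set.indicator, Set.mem_ofPred_eq, h, if_true, Pi.one_apply]
    exact_mod_cast this
  · simp [Set.indicator, h]

variable (c) in
def Bad : Set X := {x | S.Dfc c x (c x S.base)} ∪ ⋃ d, {x | S.Def c d x}

theorem meas_Bad (hc : Meas c) : MeasurableSet (S.Bad c) :=
  (S.meas_Dfc hc _).union (MeasurableSet.iUnion fun d => S.meas_Def hc d)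

theorem measure_Bad (hc : Meas c) : μ (S.Bad c) ≤ 21 * S.energy c := by
  refine (measure_union_le _ _).trans ?_
  have h1 : μ (⋃ d, {x | S.Def c d x}) ≤ 20 * S.energy c := by
    refine (measure_iUnion_fintype_le _ _).trans ?_
    refine (Finset.sum_le_sum fun d _ => S.measure_Def hc d).trans ?_
    simp only [Finset.sum_const, Finset.card_univ, Fintype.card_prod, Fintype.card_bool,
      nsmul_eq_mul]
    rw [← mul_assoc]
    norm_num
  calc _ ≤ S.energy c + 20 * S.energy c := add_le_add (S.measure_baseDef hc) h1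
    _ = 21 * S.energy c := by ring

theorem low_iff {x : X} (hx : x ∉ S.Bad c) (d : Ltr) :
    S.Low c d x ↔ S.Low c (true, true) x := by
  have h : ∀ d, S.Low c d x → S.Low c (nxt d) x := by
    intro d hd
    refine S.low_nxt c hd (fun h => hx ?_) (fun h => hx ?_) (fun h => hx (Or.inl h))
    · exact Or.inr (Set.mem_iUnion.2 ⟨_, h⟩)
    · exact Or.inr (Set.mem_iUnion.2 ⟨_, h⟩)
  have h1 : S.Low c (true, true) x → S.Low c (false, false) x := h (true, true)
  have h2 : S.Low c (false, false) x → S.Low c (false, true) x := h (false, false)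
  have h3 : S.Low c (false, true) x → S.Low c (true, false) x := h (false, true)
  have h4 : S.Low c (true, false) x → S.Low c (true, true) x := h (true, false)
  obtain ⟨a, b⟩ := d
  cases a <;> cases b <;> tauto

theorem measure_symmDiff (hc : Meas c) (d : Ltr) :
    μ ({x | S.Low c (true, true) x} ∆ (S.P d S.len ⁻¹' {x | S.Low c (true, true) x})) ≤
      42 * S.energy c := by
  have h1 : {x | S.Low c (true, true) x} ∆ (S.P d S.len ⁻¹' {x | S.Low c (true, true) x}) ⊆
      S.Bad c ∪ S.P d S.len ⁻¹' S.Bad c := by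
    intro x hx
    by_contra hn
    rw [Set.mem_union, not_or] at hn
    have e1 := S.low_iff hn.1 d
    have e2 := S.low_iff hn.2 (inv d)
    have e3 := S.low_inv c d x
    rw [Set.mem_symmDiff] at hx
    simp only [Set.mem_ofPred_eq, Set.mem_preimage] at hx
    tauto
  refine (measure_mono h1).trans ((measure_union_le _ _).trans ?_)
  rw [(S.P_mp d S.len).measure_preimage (S.meas_Bad hc).nullMeasurableSet]
  calc _ ≤ 21 * S.energy c + 21 * S.energy c := add_le_add (S.measure_Bad hc) (S.measure_Bad hc)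
    _ = 42 * S.energy c := by ring

/-- The spectral gap hypothesis. -/
def Gap : Prop :=
  ∀ s : Set X, MeasurableSet s → μ s * μ sᶜ ≤ ∑ d : Ltr, μ (s ∆ (S.P d S.len ⁻¹' s))

theorem dichotomy [IsProbabilityMeasure μ] (hg : S.Gap) (hc : Meas c)
    (he : S.energy c ≤ 1 / 3000) (h : μ {x | S.Low c (true, true) x} ≤ 3 / 4) :
    μ {x | S.Low c (true, true) x} ≤ 1 / 4 := by
  by_contra hn
  have hm := S.meas_Low hc (true, true)
  set s := {x | S.Low c (true, true) x}
  have h1 : 1 / 4 ≤ μ sᶜ := by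
    rw [prob_compl_eq_one_sub hm]
    refine le_trans ?_ (tsub_le_tsub_left h 1)
    refine ENNReal.le_sub_of_add_le_right (by finiteness) (le_of_eq ?_)
    rw [ENNReal.div_add_div_same]
    norm_num
    exact ENNReal.div_self (by norm_num) (by norm_num)
  have h2 := hg s hm
  have h3 : ∑ d : Ltr, μ (s ∆ (S.P d S.len ⁻¹' s)) ≤ 4 * (42 * (1 / 3000)) := by
    refine (Finset.sum_le_sum fun d _ => (S.measure_symmDiff hc d).trans
      (mul_le_mul_right he 42)).trans ?_
    simp
  have h4 : (1 / 4 : ℝ≥0∞) * (1 / 4) ≤ 4 * (42 * (1 / 3000)) :=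
    (mul_le_mul' (not_le.1 hn).le h1).trans (h2.trans h3)
  have h5 := ENNReal.toReal_mono (by finiteness) h4
  simp only [ENNReal.toReal_mul, ENNReal.toReal_div, ENNReal.toReal_one,
    ENNReal.toReal_ofNat] at h5
  norm_num at h5

/-! Folding steps. -/

variable (c) in
/-- The step acts at `x`. -/
def Act (p : D × D) (B : Set X) (x : X) : Prop :=
  x ∈ B ∧ x ∈ S.pres p.1 ∧ x ∈ S.pres p.2 ∧ S.lt p.1 = S.lt p.2 ∧
    c x (S.org p.1) = c x (S.org p.2) ∧
      c (S.mv (S.lt p.1) x) (S.ter p.1) ≠ c (S.mv (S.lt p.1) x) (S.ter p.2)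

variable (c) in
def mg (p : D × D) (B : Set X) (y : X) (l : J) : J :=
  if S.Act c p B (S.mv (inv (S.lt p.1)) y) ∧ l = c y (S.ter p.2) then c y (S.ter p.1) else l

variable (c) in
def step (p : D × D) (B : Set X) (y : X) (j : J) : J := S.mg c p B y (c y j)

theorem meas_Act (hc : Meas c) (p : D × D) {B : Set X} (hB : MeasurableSet B) :
    MeasurableSet {x | S.Act c p B x} :=
  hB.inter ((S.pres_meas _).inter ((S.pres_meas _).inter
    ((hc.pair (hc.pre (S.mv_mp (S.lt p.1)).measurable)).set fun l : (J → J) × (J → J) =>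
      S.lt p.1 = S.lt p.2 ∧ l.1 (S.org p.1) = l.1 (S.org p.2) ∧
        l.2 (S.ter p.1) ≠ l.2 (S.ter p.2))))

theorem meas_step (hc : Meas c) (p : D × D) {B : Set X} (hB : MeasurableSet B) :
    Meas (S.step c p B) :=
  ((Meas.mem ((S.mv_mp (inv (S.lt p.1))).measurable (S.meas_Act hc p hB))).pair hc).comp
    fun l : Prop × (J → J) => fun j =>
      if l.1 ∧ l.2 j = l.2 (S.ter p.2) then l.2 (S.ter p.1) else l.2 j

theorem mg_merge {p : D × D} {B : Set X} {y : X} (h : S.Act c p B (S.mv (inv (S.lt p.1)) y)) :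
    S.mg c p B y (c y (S.ter p.1)) = S.mg c p B y (c y (S.ter p.2)) := by
  unfold mg
  rw [if_pos (⟨h, rfl⟩ : _ ∧ c y (S.ter p.2) = c y (S.ter p.2))]
  split_ifs <;> rfl

theorem step_fold {p : D × D} {B : Set X} {x : X} (hB : x ∈ B) (h1 : x ∈ S.pres p.1)
    (h2 : x ∈ S.pres p.2) (hl : S.lt p.1 = S.lt p.2) (ho : c x (S.org p.1) = c x (S.org p.2)) :
    S.step c p B (S.mv (S.lt p.1) x) (S.ter p.1) = S.step c p B (S.mv (S.lt p.1) x) (S.ter p.2) := by
  by_cases h : c (S.mv (S.lt p.1) x) (S.ter p.1) = c (S.mv (S.lt p.1) x) (S.ter p.2)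
  · unfold step
    rw [h]
  · refine S.mg_merge ?_
    rw [S.mv_inv]
    exact ⟨hB, h1, h2, hl, ho, h⟩

theorem T_step (p : D × D) (B : Set X) (y : X) :
    S.T (S.step c p B) y = (S.T c y).image fun t =>
      (t.1, S.mg c p B y t.2.1, S.mg c p B (S.mv t.1 y) t.2.2) := by
  rw [T, T, Finset.image_image]
  rfl

theorem V_step (p : D × D) (B : Set X) (y : X) :
    S.V (S.step c p B) y = (S.V c y).image (S.mg c p B y) := by
  rw [V, V, Finset.image_image]
  rfl

theorem card_V_step (p : D × D) (B : Set X) (y : X) :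
    (S.V c y).card ≤ (S.V (S.step c p B) y).card +
      if S.Act c p B (S.mv (inv (S.lt p.1)) y) then 1 else 0 := by
  rw [V_step]
  split_ifs with h
  · have h1 : (S.V c y).erase (c y (S.ter p.2)) ⊆ (S.V c y).image (S.mg c p B y) := by
      intro l hl
      obtain ⟨h1, h2⟩ := Finset.mem_erase.1 hl
      exact Finset.mem_image.2 ⟨l, h2, if_neg fun h => h1 h.2⟩
    have h2 := Finset.card_le_card h1
    have h3 := Finset.pred_card_le_card_erase (s := S.V c y) (a := c y (S.ter p.2))
    omega
  · refine Finset.card_le_card fun l hl => ?_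
    exact Finset.mem_image.2 ⟨l, hl, if_neg fun h' => h h'.1⟩

theorem card_T_step (p : D × D) (B : Set X) (y : X) :
    (S.T (S.step c p B) y).card + ((if S.Act c p B y then 1 else 0) +
      if S.Act c p B (S.mv (inv (S.lt p.1)) y) then 1 else 0) ≤ (S.T c y).card := by
  rw [T_step]
  set R : Finset (Ltr × J × J) := (if S.Act c p B y then {S.tr c y p.2} else ∅) ∪
    if S.Act c p B (S.mv (inv (S.lt p.1)) y) then {S.tr c y (S.rev p.2)} else ∅ with hR
  have hmem : ∀ t, t ∈ R ↔ (S.Act c p B y ∧ t = S.tr c y p.2) ∨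
      (S.Act c p B (S.mv (inv (S.lt p.1)) y) ∧ t = S.tr c y (S.rev p.2)) := by
    intro t
    rw [hR]
    split_ifs <;> simp [*]
  have hcard : R.card = (if S.Act c p B y then 1 else 0) +
      if S.Act c p B (S.mv (inv (S.lt p.1)) y) then 1 else 0 := by
    rw [hR, Finset.card_union_of_disjoint]
    · split_ifs <;> simp
    · split_ifs
      · rw [Finset.disjoint_singleton]
        intro e
        have := congrArg Prod.fst e
        simp only [tr, S.lt_rev] at this
        exact inv_ne _ this.symm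
      all_goals simp
  have hp : ∀ δ, S.lt δ = S.lt p.1 → S.mv (inv (S.lt p.1)) y ∈ S.pres δ → y ∈ S.pres (S.rev δ) := by
    intro δ hl h
    have := S.pres_rev δ _ h
    rwa [hl, S.mv_inv'] at this
  rw [← hcard]
  refine card_image_add_le _ _ _ ?_ ?_
  · intro t ht
    rcases (hmem t).1 ht with ⟨h, rfl⟩ | ⟨h, rfl⟩
    · exact S.tr_mem c h.2.2.1
    · exact S.tr_mem c (hp _ h.2.2.2.1.symm h.2.2.1)
  · intro t ht
    rcases (hmem t).1 ht with ⟨h, rfl⟩ | ⟨h, rfl⟩
    · obtain ⟨hB, h1, h2, hl, ho, hne⟩ := id h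
      refine ⟨S.tr c y p.1, S.tr_mem c h1, ?_, ?_⟩
      · rw [hmem]
        rintro (⟨-, e⟩ | ⟨-, e⟩)
        · have := congrArg (fun t : Ltr × J × J => t.2.2) e
          simp only [tr, ← hl] at this
          exact hne this
        · have := congrArg Prod.fst e
          simp only [tr, S.lt_rev, ← hl] at this
          exact inv_ne _ this.symm
      · simp only [tr, ← hl, ho]
        rw [S.mg_merge (by rw [S.mv_inv]; exact h)]
    · obtain ⟨hB, h1, h2, hl, ho, hne⟩ := id h
      rw [S.mv_inv'] at hne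
      refine ⟨S.tr c y (S.rev p.1), S.tr_mem c (hp _ rfl h1), ?_, ?_⟩
      · rw [hmem]
        rintro (⟨-, e⟩ | ⟨-, e⟩)
        · have := congrArg Prod.fst e
          simp only [tr, S.lt_rev, ← hl] at this
          exact inv_ne _ this
        · exact hne (congrArg (fun t : Ltr × J × J => t.2.1) e)
      · have e := S.mg_merge h
        simp only [tr, S.lt_rev, ← hl, ter, S.rev_rev, ho] at e ⊢
        rw [e]

theorem energy_step [IsFiniteMeasure μ] (hc : Meas c) (p : D × D) {B : Set X}
    (hB : MeasurableSet B) : S.energy (S.step c p B) ≤ S.energy c := by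
  have hA := S.meas_Act hc p hB
  have hA' := (S.mv_mp (inv (S.lt p.1))).measurable hA
  have h1 : ∀ y, (S.xi (S.step c p B) y : ℝ≥0∞) + {x | S.Act c p B x}.indicator 1 y ≤
      (S.xi c y : ℝ≥0∞) + (S.mv (inv (S.lt p.1)) ⁻¹' {x | S.Act c p B x}).indicator 1 y := by
    intro y
    have e1 := S.xi_eq c y
    have e2 := S.xi_eq (S.step c p B) y
    have e3 := S.card_T_step (c := c) p B y
    have e4 := S.card_V_step (c := c) p B y
    have e5 : S.xi (S.step c p B) y + (if S.Act c p B y then 1 else 0) ≤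
        S.xi c y + if S.Act c p B (S.mv (inv (S.lt p.1)) y) then 1 else 0 := by omega
    have e6 : ((S.xi (S.step c p B) y + (if S.Act c p B y then 1 else 0) : ℕ) : ℝ≥0∞) ≤
        ((S.xi c y + if S.Act c p B (S.mv (inv (S.lt p.1)) y) then 1 else 0 : ℕ) : ℝ≥0∞) := by
      exact_mod_cast e5
    simpa [Set.indicator] using e6
  have h2 := lintegral_mono (μ := μ) h1
  rw [lintegral_add_right _ (measurable_one.indicator hA),
    lintegral_add_right _ (measurable_one.indicator hA'), lintegral_indicator_one hA,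
    lintegral_indicator_one hA', (S.mv_mp _).measure_preimage hA.nullMeasurableSet] at h2
  exact (ENNReal.add_le_add_iff_right (measure_ne_top _ _)).1 h2

theorem low_step (p : D × D) {B : Set X} (hB : MeasurableSet B) (d : Ltr) :
    μ {x | S.Low (S.step c p B) d x} ≤ μ {x | S.Low c d x} + S.len * μ B := by
  have h1 : {x | S.Low (S.step c p B) d x} ⊆ {x | S.Low c d x} ∪
      ⋃ k ∈ Finset.range S.len, S.P d k ⁻¹' (S.mv (inv (S.lt p.1)) ⁻¹' B) := by
    rintro x ⟨k, h0, hk, h⟩
    by_cases hA : S.Act c p B (S.mv (inv (S.lt p.1)) (S.P d k x))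
    · right
      simp only [Set.mem_iUnion]
      exact ⟨k, Finset.mem_range.2 hk, hA.1⟩
    · left
      refine ⟨k, h0, hk, ?_⟩
      simpa [step, mg, hA] using h
  refine (measure_mono h1).trans ((measure_union_le _ _).trans (add_le_add_right ?_ _))
  refine (measure_biUnion_finset_le _ _).trans (le_of_eq ?_)
  rw [Finset.sum_congr rfl fun k _ => ((S.P_mp d k).measure_preimage
    ((S.mv_mp _).measurable hB).nullMeasurableSet).trans
      ((S.mv_mp _).measure_preimage hB.nullMeasurableSet)]
  simp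

/-! The folding process. -/

/-- The identifications produced by folding completely. -/
inductive Fold : X → J → J → Prop
  | refl (x j) : Fold x j j
  | symm {x j j'} : Fold x j j' → Fold x j' j
  | trans {x j j' j''} : Fold x j j' → Fold x j' j'' → Fold x j j''
  | fold (δ δ' x) : x ∈ S.pres δ → x ∈ S.pres δ' → S.lt δ = S.lt δ' →
      Fold x (S.org δ) (S.org δ') → Fold (S.mv (S.lt δ) x) (S.ter δ) (S.ter δ')

/-- The states of the process. -/
def st (B : ℕ → Set X) (sched : ℕ → (D × D) × ℕ) : ℕ → X → J → J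
  | 0 => fun _ j => j
  | t + 1 => S.step (st B sched t) (sched t).1 (B (sched t).2)

theorem st_mono (B : ℕ → Set X) (sched : ℕ → (D × D) × ℕ) {t t' : ℕ} (h : t ≤ t') {x : X}
    {j j' : J} (e : S.st B sched t x j = S.st B sched t x j') :
    S.st B sched t' x j = S.st B sched t' x j' := by
  induction h with
  | refl => exact e
  | step _ ih => exact congrArg (S.mg _ _ _ x) ih

theorem fold_st (B : ℕ → Set X) (hB : ∀ x, ∃ n, x ∈ B n) (sched : ℕ → (D × D) × ℕ)
    (hs : ∀ q t, ∃ t' ≥ t, sched t' = q) {x : X} {j j' : J} (h : S.Fold x j j') :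
    ∃ t, S.st B sched t x j = S.st B sched t x j' := by
  induction h with
  | refl x j => exact ⟨0, rfl⟩
  | symm _ ih => exact ih.imp fun _ h => h.symm
  | trans _ _ ih ih' =>
    obtain ⟨t, h⟩ := ih
    obtain ⟨t', h'⟩ := ih'
    exact ⟨max t t', (S.st_mono B sched (le_max_left _ _) h).trans
      (S.st_mono B sched (le_max_right _ _) h')⟩
  | fold δ δ' x h1 h2 hl _ ih =>
    obtain ⟨t, h⟩ := ih
    obtain ⟨n, hn⟩ := hB x
    obtain ⟨t', ht, e⟩ := hs ((δ, δ'), n) t
    refine ⟨t' + 1, ?_⟩
    rw [st, e]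
    exact S.step_fold (p := (δ, δ')) hn h1 h2 hl (S.st_mono B sched ht h)

theorem main [IsProbabilityMeasure μ] (hg : S.Gap) (he : S.energy (fun _ j => j) ≤ 1 / 3000)
    (B : ℕ → Set X) (hBm : ∀ n, MeasurableSet (B n)) (hB : ∀ x, ∃ n, x ∈ B n)
    (hBs : ∀ n, S.len * μ (B n) ≤ 1 / 2) :
    μ {x | ∃ k, 0 < k ∧ k < S.len ∧
      S.Fold (S.P (true, true) k x) (S.vx (true, true) k) S.base} ≤ 1 / 4 := by
  have : Nonempty D := ⟨S.drt (true, true) 0⟩
  obtain ⟨e, hsurj⟩ := exists_surjective_nat ((D × D) × ℕ)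
  set sched : ℕ → (D × D) × ℕ := fun t => e t.unpair.1
  have hs : ∀ q t, ∃ t' ≥ t, sched t' = q := by
    intro q t
    obtain ⟨n, rfl⟩ := hsurj q
    exact ⟨Nat.pair n t, Nat.right_le_pair _ _, by simp [sched]⟩
  have h1 : ∀ t, Meas (S.st B sched t) ∧ S.energy (S.st B sched t) ≤ 1 / 3000 ∧
      μ {x | S.Low (S.st B sched t) (true, true) x} ≤ 1 / 4 := by
    intro t
    induction t with
    | zero =>
      refine ⟨Meas.const _, he, ?_⟩
      have : {x | S.Low (S.st B sched 0) (true, true) x} = ∅ := by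
        ext x
        simp only [Set.mem_ofPred_eq, Set.mem_empty_iff_false, iff_false]
        rintro ⟨k, h0, hk, h⟩
        rw [S.vx_lt hk] at h
        exact S.org_drt_ne _ k h0 hk h
      rw [this]
      simp
    | succ t ih =>
      obtain ⟨i1, i2, i3⟩ := ih
      have j1 := S.meas_step i1 (sched t).1 (hBm (sched t).2)
      have j2 := (S.energy_step i1 (sched t).1 (hBm (sched t).2)).trans i2
      refine ⟨j1, j2, S.dichotomy hg j1 j2 ?_⟩
      refine (S.low_step _ (hBm _) _).trans ((add_le_add i3 (hBs _)).trans (le_of_eq ?_))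
      rw [← ENNReal.toReal_eq_toReal_iff' (by finiteness) (by finiteness),
        ENNReal.toReal_add (by finiteness) (by finiteness)]
      simp only [ENNReal.toReal_div, ENNReal.toReal_one, ENNReal.toReal_ofNat]
      norm_num
  have h2 : {x | ∃ k, 0 < k ∧ k < S.len ∧
      S.Fold (S.P (true, true) k x) (S.vx (true, true) k) S.base} ⊆
      ⋃ t, {x | S.Low (S.st B sched t) (true, true) x} := by
    rintro x ⟨k, h0, hk, h⟩
    obtain ⟨t, ht⟩ := S.fold_st B hB sched hs h
    exact Set.mem_iUnion.2 ⟨t, k, h0, hk, ht⟩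
  have h3 : Monotone fun t => {x | S.Low (S.st B sched t) (true, true) x} := by
    rintro t t' h x ⟨k, h0, hk, e⟩
    exact ⟨k, h0, hk, S.st_mono B sched h e⟩
  refine (measure_mono h2).trans ?_
  rw [h3.measure_iUnion]
  exact iSup_le fun t => (h1 t).2.2

end Setup

end Vale.Agent.P189
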