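import Vale.Agent.P090.Grp

/-!
Measured Stallings folding: the pointwise combinatorics.
-/

open MeasureTheory
open scoped ENNReal

noncomputable section

namespace Vale.Agent.P189

open Vale.Agent.P090 (Ltr inv inv_inv')
open Classical

/-- The cyclic permutation of the four letters forced by the border property. -/
def nxt (d : Ltr) : Ltr := if d.2 then (!d.1, false) else (d.1, true)

theorem inv_ne (d : Ltr) : inv d ≠ d := by
  obtain ⟨a, b⟩ := d
  cases b <;> simp [inv]

/-- A field of finite labelled graphs over a space with an action of the free group. -/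
structure Setup (X : Type) [MeasurableSpace X] (μ : Measure X) (J D : Type) where
  mv : Ltr → X → X
  mv_mp : ∀ d, MeasurePreserving (mv d) μ μ
  mv_inv : ∀ d x, mv (inv d) (mv d x) = x
  org : D → J
  lt : D → Ltr
  rev : D → D
  rev_rev : ∀ δ, rev (rev δ) = δ
  lt_rev : ∀ δ, lt (rev δ) = inv (lt δ)
  pres : D → Set X
  pres_meas : ∀ δ, MeasurableSet (pres δ)
  pres_rev : ∀ δ x, x ∈ pres δ → mv (lt δ) x ∈ pres (rev δ)
  base : J
  two : ∀ δ x, x ∈ pres δ → org δ ≠ base → ∃ δ', x ∈ pres δ' ∧ org δ' = org δ ∧ lt δ' ≠ lt δ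
  len : ℕ
  len_pos : 0 < len
  drt : Ltr → ℕ → D
  drt_pres : ∀ d k x, k < len → x ∈ pres (drt d k)
  lt_drt_zero : ∀ d, lt (drt d 0) = d
  org_drt_zero : ∀ d, org (drt d 0) = base
  org_drt_succ : ∀ d k, k + 1 < len → org (drt d (k + 1)) = org (rev (drt d k))
  org_drt_ne : ∀ d k, 0 < k → k < len → org (drt d k) ≠ base
  rev_drt : ∀ d k, k < len → rev (drt d k) = drt (inv d) (len - 1 - k)
  red : ∀ d k, k + 1 < len → lt (drt d (k + 1)) ≠ inv (lt (drt d k))
  border : ∀ d e m, 0 < m → m < len →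
    (∀ j < m, lt (drt e j) = inv (lt (drt d (m - 1 - j)))) → lt (drt e m) = nxt d

namespace Setup

variable {X : Type} [MeasurableSpace X] {μ : Measure X} {J D : Type} [Fintype J] [Fintype D]
variable (S : Setup X μ J D)

omit [Fintype J] [Fintype D] in
theorem mv_inv' (d : Ltr) (x : X) : S.mv d (S.mv (inv d) x) = x := by
  have := S.mv_inv (inv d) x
  rwa [inv_inv'] at this

/-- The terminal vertex of a dart. -/
def ter (δ : D) : J := S.org (S.rev δ)

/-- The vertices along a special path. -/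
def vx (d : Ltr) (k : ℕ) : J := if k < S.len then S.org (S.drt d k) else S.base

/-- The points of the space along a special path. -/
def P (d : Ltr) : ℕ → X → X
  | 0, x => x
  | k + 1, x => S.mv (S.lt (S.drt d k)) (P d k x)

omit [Fintype J] [Fintype D] in
theorem vx_lt {d : Ltr} {k : ℕ} (h : k < S.len) : S.vx d k = S.org (S.drt d k) := if_pos h

omit [Fintype J] [Fintype D] in
theorem vx_len (d : Ltr) : S.vx d S.len = S.base := if_neg (lt_irrefl _)

omit [Fintype J] [Fintype D] in
theorem vx_zero (d : Ltr) : S.vx d 0 = S.base := by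
  rw [S.vx_lt S.len_pos, S.org_drt_zero]

omit [Fintype J] [Fintype D] in
theorem ter_drt {d : Ltr} {k : ℕ} (h : k < S.len) : S.ter (S.drt d k) = S.vx d (k + 1) := by
  by_cases h1 : k + 1 < S.len
  · rw [S.vx_lt h1, S.org_drt_succ d k h1, ter]
  · have e : k + 1 = S.len := by omega
    rw [e, S.vx_len, ter, S.rev_drt d k h, show S.len - 1 - k = 0 by omega, S.org_drt_zero]

omit [Fintype J] [Fintype D] in
theorem vx_inv (d : Ltr) {k : ℕ} (h : k ≤ S.len) : S.vx (inv d) (S.len - k) = S.vx d k := by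
  rcases Nat.eq_zero_or_pos k with rfl | hk
  · rw [Nat.sub_zero, S.vx_len, S.vx_zero]
  · obtain ⟨k, rfl⟩ : ∃ k', k = k' + 1 := ⟨k - 1, by omega⟩
    rw [← S.ter_drt (by omega), ter, S.rev_drt d k (by omega), S.vx_lt (by omega)]
    congr 2
    omega

omit [Fintype J] [Fintype D] in
theorem P_inv (d : Ltr) (x : X) {k : ℕ} (h : k ≤ S.len) :
    S.P (inv d) k (S.P d S.len x) = S.P d (S.len - k) x := by
  induction k with
  | zero => rfl
  | succ k ih =>
    have e : S.len - k = (S.len - (k + 1)) + 1 := by omega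
    have e2 : S.drt (inv d) k = S.rev (S.drt d (S.len - (k + 1))) := by
      rw [S.rev_drt d _ (by omega)]
      congr 1
      omega
    rw [P, ih (by omega), e, P, e2, S.lt_rev, S.mv_inv]

omit [Fintype J] [Fintype D] in
theorem P_mp (d : Ltr) (k : ℕ) : MeasurePreserving (S.P d k) μ μ := by
  induction k with
  | zero => exact MeasurePreserving.id μ
  | succ k ih => exact (S.mv_mp _).comp ih

/-- The darts present at a point. -/
def Pr (x : X) : Finset D := Finset.univ.filter fun δ => x ∈ S.pres δ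

omit [Fintype J] in
theorem mem_Pr {x : X} {δ : D} : δ ∈ S.Pr x ↔ x ∈ S.pres δ := by simp [Pr]

variable (c : X → J → J)

/-- The class of a dart in a partially folded state. -/
def tr (x : X) (δ : D) : Ltr × J × J :=
  (S.lt δ, c x (S.org δ), c (S.mv (S.lt δ) x) (S.ter δ))

def T (x : X) : Finset (Ltr × J × J) := (S.Pr x).image (S.tr c x)

def V (x : X) : Finset J := (S.Pr x).image fun δ => c x (S.org δ)

def deg (x : X) (l : J) : ℕ := ((S.T c x).filter fun t => t.2.1 = l).card

def cap (x : X) (l : J) : ℕ := if l = c x S.base then 4 else 2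

def xi (x : X) : ℕ := ∑ l ∈ S.V c x, (S.deg c x l - S.cap c x l)

def Dfc (x : X) (l : J) : Prop := S.cap c x l < S.deg c x l

def Clean (x : X) (l : J) : Prop := l ≠ c x S.base ∧ S.deg c x l ≤ 2

def bad (x : X) : Finset (Ltr × J × J) := (S.T c x).filter fun t => S.Dfc c x t.2.1

omit [Fintype J] in
theorem tr_mem {x : X} {δ : D} (h : x ∈ S.pres δ) : S.tr c x δ ∈ S.T c x :=
  Finset.mem_image_of_mem _ (S.mem_Pr.2 h)

omit [Fintype J] in
theorem base_mem_V (x : X) : c x S.base ∈ S.V c x := by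
  refine Finset.mem_image.2 ⟨S.drt (true, true) 0, S.mem_Pr.2 (S.drt_pres _ _ _ S.len_pos), ?_⟩
  rw [S.org_drt_zero]

omit [Fintype J] in
theorem sum_deg (x : X) : ∑ l ∈ S.V c x, S.deg c x l = (S.T c x).card := by
  symm
  refine Finset.card_eq_sum_card_fiberwise (f := fun t : Ltr × J × J => t.2.1) ?_
  intro t ht
  obtain ⟨δ, hδ, rfl⟩ := Finset.mem_image.1 ht
  exact Finset.mem_image_of_mem _ hδ

omit [Fintype J] in
theorem sum_cap (x : X) : ∑ l ∈ S.V c x, S.cap c x l = 2 * (S.V c x).card + 2 := by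
  have : ∀ l, S.cap c x l = 2 + if l = c x S.base then 2 else 0 := by
    intro l
    unfold cap
    split_ifs <;> rfl
  simp only [this, Finset.sum_add_distrib, Finset.sum_ite_eq', S.base_mem_V c x, if_true]
  simp [mul_comm]

omit [Fintype J] in
theorem four_sub (x : X) :
    (Finset.univ.image fun d : Ltr => S.tr c x (S.drt d 0)) ⊆
      (S.T c x).filter fun t => t.2.1 = c x S.base := by
  intro t ht
  obtain ⟨d, -, rfl⟩ := Finset.mem_image.1 ht
  refine Finset.mem_filter.2 ⟨S.tr_mem c (S.drt_pres _ _ _ S.len_pos), ?_⟩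
  simp [tr, S.org_drt_zero]

omit [Fintype J] [Fintype D] in
theorem four_card (x : X) :
    (Finset.univ.image fun d : Ltr => S.tr c x (S.drt d 0)).card = 4 := by
  rw [Finset.card_image_of_injective]
  · simp
  · intro d e h
    have := congrArg Prod.fst h
    simpa [tr, S.lt_drt_zero] using this

omit [Fintype J] in
theorem two_le_deg {x : X} {δ δ' : D} (h : x ∈ S.pres δ) (h' : x ∈ S.pres δ')
    (ho : c x (S.org δ') = c x (S.org δ)) (hl : S.lt δ' ≠ S.lt δ) :
    ({S.tr c x δ, S.tr c x δ'} : Finset _) ⊆ (S.T c x).filter (fun t => t.2.1 = c x (S.org δ)) ∧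
      ({S.tr c x δ, S.tr c x δ'} : Finset _).card = 2 := by
  constructor
  · intro t ht
    simp only [Finset.mem_insert, Finset.mem_singleton] at ht
    rcases ht with rfl | rfl
    · exact Finset.mem_filter.2 ⟨S.tr_mem c h, rfl⟩
    · exact Finset.mem_filter.2 ⟨S.tr_mem c h', ho⟩
  · refine Finset.card_pair ?_
    intro e
    exact hl (congrArg Prod.fst e).symm

omit [Fintype J] in
theorem cap_le_deg {x : X} {l : J} (hl : l ∈ S.V c x) : S.cap c x l ≤ S.deg c x l := by
  unfold cap
  split_ifs with h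
  · subst h
    rw [← S.four_card c x]
    exact Finset.card_le_card (S.four_sub c x)
  · obtain ⟨δ, hδ, rfl⟩ := Finset.mem_image.1 hl
    have hδ' := S.mem_Pr.1 hδ
    obtain ⟨δ', h1, h2, h3⟩ := S.two δ x hδ' (fun e => h (by rw [e]))
    obtain ⟨h4, h5⟩ := S.two_le_deg c hδ' h1 (by rw [h2]) h3
    rw [← h5]
    exact Finset.card_le_card h4

omit [Fintype J] in
theorem xi_eq (x : X) : S.xi c x + 2 * (S.V c x).card + 2 = (S.T c x).card := by
  rw [add_assoc, ← S.sum_cap c x, ← S.sum_deg c x, xi, ← Finset.sum_add_distrib]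
  refine Finset.sum_congr rfl fun l hl => ?_
  have := S.cap_le_deg c hl
  omega

omit [Fintype J] in
theorem card_bad (x : X) : (S.bad c x).card ≤ 5 * S.xi c x := by
  have h1 : (S.bad c x).card = ∑ l ∈ S.V c x, ((S.bad c x).filter fun t => t.2.1 = l).card := by
    refine Finset.card_eq_sum_card_fiberwise (f := fun t : Ltr × J × J => t.2.1) ?_
    intro t ht
    obtain ⟨δ, hδ, rfl⟩ := Finset.mem_image.1 (Finset.mem_filter.1 ht).1
    exact Finset.mem_image_of_mem _ hδ
  rw [h1, xi, Finset.mul_sum]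
  refine Finset.sum_le_sum fun l _ => ?_
  by_cases hd : S.Dfc c x l
  · have h2 : ((S.bad c x).filter fun t => t.2.1 = l).card ≤ S.deg c x l :=
      Finset.card_le_card (Finset.filter_subset_filter _ (Finset.filter_subset _ _))
    have h3 : S.cap c x l ≤ 4 := by
      unfold cap
      split_ifs <;> omega
    unfold Dfc at hd
    omega
  · have : ((S.bad c x).filter fun t => t.2.1 = l) = ∅ := by
      refine Finset.filter_eq_empty_iff.2 fun t ht e => hd ?_
      rw [← e]
      exact (Finset.mem_filter.1 ht).2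
    simp [this]

omit [Fintype J] in
theorem one_le_xi {x : X} (h : S.Dfc c x (c x S.base)) : 1 ≤ S.xi c x := by
  refine le_trans ?_ (Finset.single_le_sum (f := fun l => S.deg c x l - S.cap c x l)
    (fun _ _ => Nat.zero_le _) (S.base_mem_V c x))
  unfold Dfc at h
  omega

omit [Fintype J] in
theorem not_clean {x : X} {l : J} (h : ¬ S.Clean c x l) (h' : ¬ S.Dfc c x l) :
    l = c x S.base := by
  by_contra hne
  unfold Dfc cap at h'
  rw [if_neg hne] at h'
  exact h ⟨hne, by omega⟩

omit [Fintype J] in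
theorem base_tr {x : X} {δ : D} (h : ¬ S.Dfc c x (c x S.base)) (hδ : x ∈ S.pres δ)
    (ho : c x (S.org δ) = c x S.base) : S.tr c x δ = S.tr c x (S.drt (S.lt δ) 0) := by
  have h1 : (Finset.univ.image fun d : Ltr => S.tr c x (S.drt d 0)) =
      (S.T c x).filter fun t => t.2.1 = c x S.base := by
    refine Finset.eq_of_subset_of_card_le (S.four_sub c x) ?_
    rw [S.four_card]
    unfold Dfc cap at h
    rw [if_pos rfl] at h
    exact not_lt.1 h
  have h2 : S.tr c x δ ∈ (S.T c x).filter fun t => t.2.1 = c x S.base :=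
    Finset.mem_filter.2 ⟨S.tr_mem c hδ, ho⟩
  rw [← h1] at h2
  obtain ⟨d, -, hd⟩ := Finset.mem_image.1 h2
  have : d = S.lt δ := by
    have := congrArg Prod.fst hd
    simpa [tr, S.lt_drt_zero] using this
  rw [← this, hd]

omit [Fintype J] in
theorem clean_tr {x : X} {δ₀ δ₁ δ : D} (h : S.deg c x (c x (S.org δ₀)) ≤ 2)
    (h₀ : x ∈ S.pres δ₀) (h₁ : x ∈ S.pres δ₁) (hδ : x ∈ S.pres δ)
    (o₁ : c x (S.org δ₁) = c x (S.org δ₀)) (o : c x (S.org δ) = c x (S.org δ₀))
    (l₁ : S.lt δ₁ ≠ S.lt δ₀) (l : S.lt δ ≠ S.lt δ₀) : S.tr c x δ = S.tr c x δ₁ := by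
  obtain ⟨h4, h5⟩ := S.two_le_deg c h₀ h₁ o₁ l₁
  have h1 := Finset.eq_of_subset_of_card_le h4 (by rw [h5]; exact h)
  have h2 : S.tr c x δ ∈ (S.T c x).filter fun t => t.2.1 = c x (S.org δ₀) :=
    Finset.mem_filter.2 ⟨S.tr_mem c hδ, o⟩
  rw [← h1] at h2
  simp only [Finset.mem_insert, Finset.mem_singleton] at h2
  rcases h2 with h2 | h2
  · exact absurd (congrArg Prod.fst h2) l
  · exact h2

omit [Fintype J] in
/-- A path through clean vertices is followed by any reduced path sharing its first edge. -/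
theorem follow {e e' : Ltr} {p p' m : ℕ} {x x' : X} (hp : p + m ≤ S.len) (hp' : p' < S.len)
    (h0 : S.P e p x = S.P e' p' x')
    (ht : S.tr c (S.P e p x) (S.drt e p) = S.tr c (S.P e p x) (S.drt e' p'))
    (hc : ∀ i, p < i → i < p + m → S.Clean c (S.P e i x) (c (S.P e i x) (S.vx e i))) :
    ∀ i < m, p' + i < S.len ∧ S.P e (p + i) x = S.P e' (p' + i) x' ∧
      S.tr c (S.P e (p + i) x) (S.drt e (p + i)) = S.tr c (S.P e (p + i) x) (S.drt e' (p' + i)) := by
  intro i
  induction i with
  | zero => exact fun _ => ⟨hp', h0, ht⟩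
  | succ i ih =>
    intro hi
    obtain ⟨h1, h2, h3⟩ := ih (by omega)
    have hl : S.lt (S.drt e (p + i)) = S.lt (S.drt e' (p' + i)) := congrArg Prod.fst h3
    have hP : S.P e (p + (i + 1)) x = S.P e' (p' + (i + 1)) x' := by
      rw [← add_assoc, ← add_assoc, P, P, hl, h2]
    have hP' : S.mv (S.lt (S.drt e (p + i))) (S.P e (p + i) x) = S.P e (p + (i + 1)) x := rfl
    have ho : c (S.P e (p + (i + 1)) x) (S.vx e (p + (i + 1))) =
        c (S.P e (p + (i + 1)) x) (S.vx e' (p' + (i + 1))) := by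
      have := congrArg (fun t : Ltr × J × J => t.2.2) h3
      simp only [tr] at this
      rw [← hl, hP', S.ter_drt (by omega), S.ter_drt h1] at this
      exact this
    obtain ⟨hc1, hc2⟩ := hc (p + (i + 1)) (by omega) (by omega)
    have hlt : p' + (i + 1) < S.len := by
      by_contra hn
      have : p' + (i + 1) = S.len := by omega
      rw [this, S.vx_len] at ho
      exact hc1 ho
    refine ⟨hlt, hP, ?_⟩
    have ho0 : S.org (S.rev (S.drt e (p + i))) = S.vx e (p + (i + 1)) :=
      S.ter_drt (d := e) (k := p + i) (by omega)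
    symm
    refine S.clean_tr c (δ₀ := S.rev (S.drt e (p + i))) ?_ ?_ (S.drt_pres _ _ _ (by omega))
      (S.drt_pres _ _ _ hlt) ?_ ?_ ?_ ?_
    · rw [ho0]; exact hc2
    · exact S.pres_rev _ _ (S.drt_pres _ _ _ (by omega))
    · rw [ho0, S.vx_lt (by omega)]
    · rw [ho0, ho, S.vx_lt hlt]
    · rw [S.lt_rev]; exact S.red e (p + i) (by omega)
    · rw [S.lt_rev, hl]; exact S.red e' (p' + i) hlt

/-- Some interior vertex of the special path has been identified with the base vertex. -/
def Low (d : Ltr) (x : X) : Prop :=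
  ∃ k, 0 < k ∧ k < S.len ∧ c (S.P d k x) (S.vx d k) = c (S.P d k x) S.base

/-- The first vertex of the special path that is not clean is the `k`-th, and it is defective. -/
def DefAt (d : Ltr) (k : ℕ) (x : X) : Prop :=
  S.Dfc c (S.P d k x) (c (S.P d k x) (S.vx d k)) ∧
    ∀ i, 0 < i → i < k → S.Clean c (S.P d i x) (c (S.P d i x) (S.vx d i))

def Def (d : Ltr) (x : X) : Prop := ∃ k, 0 < k ∧ k < S.len ∧ S.DefAt c d k x

omit [Fintype J] [Fintype D] in
theorem low_inv (d : Ltr) (x : X) : S.Low c (inv d) (S.P d S.len x) ↔ S.Low c d x := by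
  constructor
  · rintro ⟨k, h1, h2, h3⟩
    refine ⟨S.len - k, by omega, by omega, ?_⟩
    rw [S.P_inv d x h2.le] at h3
    rw [← h3, ← S.vx_inv d (by omega)]
    congr 2
    omega
  · rintro ⟨k, h1, h2, h3⟩
    refine ⟨S.len - k, by omega, by omega, ?_⟩
    rw [S.P_inv d x (by omega), S.vx_inv d h2.le, show S.len - (S.len - k) = k by omega]
    exact h3

omit [Fintype J] in
theorem first_stop {d : Ltr} {x : X} (hD : ¬ S.Def c d x)
    (h : ∃ k, 0 < k ∧ k < S.len ∧ ¬ S.Clean c (S.P d k x) (c (S.P d k x) (S.vx d k))) :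
    ∃ m, 0 < m ∧ m < S.len ∧ c (S.P d m x) (S.vx d m) = c (S.P d m x) S.base ∧
      ¬ S.Dfc c (S.P d m x) (c (S.P d m x) S.base) ∧
      ∀ i, 0 < i → i < m → S.Clean c (S.P d i x) (c (S.P d i x) (S.vx d i)) := by
  obtain ⟨h1, h2, h3⟩ := Nat.find_spec h
  set m := Nat.find h with hm
  have hc : ∀ i, 0 < i → i < m → S.Clean c (S.P d i x) (c (S.P d i x) (S.vx d i)) := by
    intro i hi him
    by_contra hn
    exact Nat.find_min h him ⟨hi, by omega, hn⟩
  have hd : ¬ S.Dfc c (S.P d m x) (c (S.P d m x) (S.vx d m)) :=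
    fun hd => hD ⟨m, h1, h2, hd, hc⟩
  have hb := S.not_clean c h3 hd
  exact ⟨m, h1, h2, hb, hb ▸ hd, hc⟩

omit [Fintype J] in
theorem low_nxt {d : Ltr} {x : X} (hL : S.Low c d x) (hD : ¬ S.Def c d x)
    (hD' : ¬ S.Def c (nxt d) x) (hB : ¬ S.Dfc c x (c x S.base)) : S.Low c (nxt d) x := by
  obtain ⟨m, hm0, hm, hb, hnd, hc⟩ := S.first_stop c hD (by
    obtain ⟨k, h1, h2, h3⟩ := hL
    exact ⟨k, h1, h2, fun h => h.1 h3⟩)
  set y := S.P d m x with hy
  set x₀ := S.P d S.len x with hx₀
  have hy' : S.P (inv d) (S.len - m) x₀ = y := by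
    rw [hx₀, S.P_inv d x (by omega), show S.len - (S.len - m) = m by omega]
  set e := S.lt (S.drt (inv d) (S.len - m)) with he
  have h1 : S.tr c y (S.drt (inv d) (S.len - m)) = S.tr c y (S.drt e 0) := by
    refine S.base_tr c hnd (S.drt_pres _ _ _ (by omega)) ?_
    rw [← S.vx_lt (by omega), S.vx_inv d hm.le, hb]
  have h2 := S.follow c (e := inv d) (e' := e) (p := S.len - m) (p' := 0) (m := m) (x := x₀)
    (x' := y) (by omega) S.len_pos hy' (by rw [hy']; exact h1) (by
      intro i hi1 hi2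
      have := hc (S.len - i) (by omega) (by omega)
      rw [hx₀, S.P_inv d x (by omega), ← S.vx_inv (inv d) (k := i) (by omega), inv_inv']
      exact this)
  have h3 : S.lt (S.drt e m) = nxt d := by
    refine S.border d e m hm0 hm fun j hj => ?_
    have := congrArg Prod.fst (h2 j hj).2.2
    simp only [tr, zero_add] at this
    rw [← this, ← S.lt_rev, S.rev_drt d _ (by omega)]
    congr 2
    omega
  obtain ⟨m', rfl⟩ : ∃ m', m = m' + 1 := ⟨m - 1, by omega⟩
  obtain ⟨-, h4, h5⟩ := h2 m' (by omega)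
  rw [zero_add] at h4 h5
  have hl : S.lt (S.drt (inv d) (S.len - (m' + 1) + m')) = S.lt (S.drt e m') :=
    congrArg Prod.fst h5
  have hend : S.P (inv d) (S.len - (m' + 1) + m' + 1) x₀ = x := by
    rw [show S.len - (m' + 1) + m' + 1 = S.len by omega, hx₀, S.P_inv d x le_rfl, Nat.sub_self]
    rfl
  have h6 : S.P e (m' + 1) y = x := by
    rw [← hend, P, P, hl, h4]
  have h7 : c x (S.vx e (m' + 1)) = c x S.base := by
    have := congrArg (fun t : Ltr × J × J => t.2.2) h5
    simp only [tr] at this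
    rw [← hl] at this
    have e1 : S.mv (S.lt (S.drt (inv d) (S.len - (m' + 1) + m')))
        (S.P (inv d) (S.len - (m' + 1) + m') x₀) = x := hend
    rw [e1, S.ter_drt (by omega), S.ter_drt (by omega),
      show S.len - (m' + 1) + m' + 1 = S.len by omega, S.vx_len] at this
    exact this.symm
  have h8 : S.tr c x (S.drt e (m' + 1)) = S.tr c x (S.drt (nxt d) 0) := by
    rw [← h3]
    refine S.base_tr c hB (S.drt_pres _ _ _ hm) ?_
    rw [← S.vx_lt hm, h7]
  by_contra hn
  have h9 : ∀ i, 0 < i → i < S.len →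
      S.Clean c (S.P (nxt d) i x) (c (S.P (nxt d) i x) (S.vx (nxt d) i)) := by
    intro i hi1 hi2
    by_contra hcl
    obtain ⟨k, hk0, hk, hkb, -⟩ := S.first_stop c hD' ⟨i, hi1, hi2, hcl⟩
    exact hn ⟨k, hk0, hk, hkb⟩
  have h10 := S.follow c (e := nxt d) (e' := e) (p := 0) (p' := m' + 1) (m := S.len) (x := x)
    (x' := y) (by omega) hm h6.symm h8.symm (fun i hi1 hi2 => h9 i hi1 (by omega))
  have := (h10 (S.len - 1) (by omega)).1
  omega

omit [Fintype J] in
theorem defAt_inj {d : Ltr} {k k' : ℕ} {x x' : X} (hk0 : 0 < k) (hkk : k < k') (hk' : k' < S.len)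
    (h' : S.DefAt c d k' x') (hy : S.P d k x = S.P d k' x') :
    S.tr c (S.P d k' x') (S.drt (inv d) (S.len - k')) ≠
      S.tr c (S.P d k' x') (S.drt (inv d) (S.len - k)) := by
  intro ht
  have e1 : S.P (inv d) (S.len - k') (S.P d S.len x') = S.P d k' x' := by
    rw [S.P_inv d x' (by omega), show S.len - (S.len - k') = k' by omega]
  have e2 : S.P (inv d) (S.len - k) (S.P d S.len x) = S.P d k x := by
    rw [S.P_inv d x (by omega), show S.len - (S.len - k) = k by omega]
  have h2 := S.follow c (e := inv d) (e' := inv d) (p := S.len - k') (p' := S.len - k) (m := k')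
    (x := S.P d S.len x') (x' := S.P d S.len x) (by omega) (by omega) (by rw [e1, e2, hy])
    (by rw [e1]; exact ht) (by
      intro i hi1 hi2
      have := h'.2 (S.len - i) (by omega) (by omega)
      rw [S.P_inv d x' (by omega), ← S.vx_inv (inv d) (k := i) (by omega), inv_inv']
      exact this)
  have := (h2 (k' - 1) (by omega)).1
  omega

omit [Fintype J] in
theorem defAt_bad {d : Ltr} {k : ℕ} {x : X} (hk0 : 0 < k) (hk : k < S.len)
    (h : S.DefAt c d k x) :
    S.tr c (S.P d k x) (S.drt (inv d) (S.len - k)) ∈ S.bad c (S.P d k x) := by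
  refine Finset.mem_filter.2 ⟨S.tr_mem c (S.drt_pres _ _ _ (by omega)), ?_⟩
  have := h.1
  rw [← S.vx_inv d hk.le, S.vx_lt (by omega)] at this
  exact this

end Setup

end Vale.Agent.P189
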