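import Vale.Agent.P189.Arcs

/-!
The Bernoulli action has infinite cost.
-/

open MeasureTheory
open scoped ENNReal

noncomputable section

namespace Vale.Agent.P189

open Vale.Agent.P090
open Classical

section

variable {Γ : Type} [Group Γ] {α : PmpAction Γ} (Φ : Graphing α)

/-- The piece of the domain on which a map of the graphing agrees with a group element. -/
def Graphing.piece (p : Φ.ι × Γ) : Set α.X := Φ.dom p.1 ∩ {x | Φ.map p.1 x = α.act x p.2}

theorem Graphing.measurableSet_piece (p : Φ.ι × Γ) : MeasurableSet (Φ.piece p) :=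
  (Φ.measurableSet_dom _).inter
    (measurableSet_eq_fun (Φ.preserving _).measurable (α.preserving _).measurable)

theorem Graphing.tsum_piece [Countable Γ] (hf : α.EssFree) :
    ∑' p, α.μ (Φ.piece p) ≤ Φ.total := by
  rw [ENNReal.tsum_prod']
  refine ENNReal.tsum_le_tsum fun i => ?_
  rw [← measure_iUnion₀ ?_ fun g => (Φ.measurableSet_piece (i, g)).nullMeasurableSet]
  · exact measure_mono (Set.iUnion_subset fun g => Set.inter_subset_left)
  · intro g h hgh
    refine measure_mono_null ?_ (hf (g * h⁻¹) (by simpa [mul_inv_eq_one] using hgh))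
    rintro x ⟨⟨-, h1⟩, -, h2⟩
    have h3 : α.act x g = α.act x h := h1.symm.trans h2
    show α.act x (g * h⁻¹) = x
    rw [← α.act_mul, h3, α.act_inv]

/-- Steps through finitely many pieces. -/
def Graphing.StepF (F : Finset (Φ.ι × Γ)) (x y : α.X) : Prop :=
  ∃ p ∈ F, (x ∈ Φ.piece p ∧ α.act x p.2 = y) ∨ (y ∈ Φ.piece p ∧ α.act y p.2 = x)

theorem Graphing.chain_mono {F F' : Finset (Φ.ι × Γ)} (h : F ⊆ F') {x y : α.X}
    (hc : Relation.ReflTransGen (Φ.StepF F) x y) : Relation.ReflTransGen (Φ.StepF F') x y := by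
  induction hc with
  | refl => exact .refl
  | tail _ hs ih =>
    obtain ⟨p, hp, e⟩ := hs
    exact ih.tail ⟨p, h hp, e⟩

theorem Graphing.exists_finset {x y : α.X} (hc : Relation.ReflTransGen Φ.Step x y) :
    ∃ F, Relation.ReflTransGen (Φ.StepF F) x y := by
  induction hc with
  | refl => exact ⟨∅, .refl⟩
  | tail _ hs ih =>
    obtain ⟨F, hF⟩ := ih
    obtain ⟨i, ⟨h1, h2⟩ | ⟨h1, h2⟩⟩ := hs
    · obtain ⟨g, hg⟩ := Φ.mem_orbit i _ h1
      exact ⟨insert (i, g) F, (Φ.chain_mono (Finset.subset_insert _ _) hF).tail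
        ⟨(i, g), Finset.mem_insert_self _ _, Or.inl ⟨⟨h1, hg⟩, hg.symm.trans h2⟩⟩⟩
    · obtain ⟨g, hg⟩ := Φ.mem_orbit i _ h1
      exact ⟨insert (i, g) F, (Φ.chain_mono (Finset.subset_insert _ _) hF).tail
        ⟨(i, g), Finset.mem_insert_self _ _, Or.inr ⟨⟨h1, hg⟩, hg.symm.trans h2⟩⟩⟩

theorem Graphing.exists_good [Countable Γ] (hΦ : Φ.Generates) (g : Γ) :
    ∃ F, 1 / 4 < α.μ {x | Relation.ReflTransGen (Φ.StepF F) x (α.act x g)} := by
  have := Φ.countable
  have h1 : Monotone fun F => {x | Relation.ReflTransGen (Φ.StepF F) x (α.act x g)} :=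
    fun _ _ h _ hx => Φ.chain_mono h hx
  have h2 : α.μ Set.univ ≤ α.μ (⋃ F, {x | Relation.ReflTransGen (Φ.StepF F) x (α.act x g)}) := by
    refine measure_mono_ae (hΦ.mono fun x hx _ => ?_)
    exact Set.mem_iUnion.2 (Φ.exists_finset (hx g))
  rw [h1.measure_iUnion, measure_univ] at h2
  exact lt_iSup_iff.1 (lt_of_lt_of_le (by norm_num) h2)

end

theorem badAction_cost : badAction.cost = ⊤ := by
  refine iInf₂_eq_top.2 fun Φ hΦ => ?_
  by_contra hne
  have h1 := ne_top_of_le_ne_top hne (Φ.tsum_piece badAction_free)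
  obtain ⟨T, hT⟩ := ((ENNReal.tendsto_tsum_compl_atTop_zero h1).eventually
    (gt_mem_nhds (show (0 : ℝ≥0∞) < 1 / 6000 by norm_num))).exists
  obtain ⟨n, hn⟩ := exists_level (T.image Prod.snd)
  obtain ⟨F, hF⟩ := Φ.exists_good hΦ (emb (n + 1) (FreeGroup.of true))
  obtain ⟨M₀, hM₀⟩ := exists_level (F.image Prod.snd)
  set M := max M₀ (n + 1) with hM
  have hMn : n + 1 ≤ M := le_max_right _ _
  have hFM : ∀ p ∈ F, ∃ w, emb M w = p.2 := fun p hp =>
    emb_range_mono (le_max_left _ _) (hM₀ _ (Finset.mem_image_of_mem _ hp))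
  choose u hu using hFM
  set F' := F.filter fun p => p.2 ∉ (emb n).range with hF'
  let R : Arcs badAction F' :=
    { ρ := emb M
      k := M - n
      u := fun p => u p.1 (Finset.mem_filter.1 p.2).1
      A₀ := fun p => Φ.piece p.1
      meas₀ := fun p => Φ.measurableSet_piece p.1 }
  obtain ⟨B, hBm, hB, hBs⟩ := exists_cover (Γ := G) (4 ^ (M - n))
  have hmain := R.main (show 0 < M - n by omega) ?_ ?_ B hBm hB hBs
  · refine absurd (hF.trans_le (le_trans (measure_mono_ae ?_) hmain)) (lt_irrefl _)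
    have hfree : ∀ᵐ x ∂badAction.μ, ∀ g : G, g ≠ 1 → badAction.act x g ≠ x := by
      rw [ae_all_iff]
      intro g
      by_cases hg : g = 1
      · simp [hg]
      · simpa [hg, ae_iff] using badAction_free g hg
    filter_upwards [hfree] with x hx hc
    have hp : ∀ p ∈ F, ∀ y ∈ Φ.piece p, ∃ w, emb M w = p.2 ∧ R.setup.RdG y w := by
      intro p hp y hy
      by_cases h : p.2 ∈ (emb n).range
      · obtain ⟨w, hw⟩ := h
        exact ⟨phis (M - n) w, (emb_phis (by omega) w).trans hw, R.rdG_phis w y⟩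
      · exact ⟨u p hp, hu p hp, R.rdG_extra ⟨p, Finset.mem_filter.2 ⟨hp, h⟩⟩ hy⟩
    have key : ∀ y, Relation.ReflTransGen (Φ.StepF F) x y →
        ∃ h, y = badAction.act x (emb M h) ∧ R.setup.RdG x h := by
      intro y hy
      induction hy with
      | refl => exact ⟨1, by rw [map_one, badAction.act_one], R.rdG_one x⟩
      | tail _ hs ih =>
        obtain ⟨h, rfl, hh⟩ := ih
        obtain ⟨p, hpF, ⟨h1, h2⟩ | ⟨h1, h2⟩⟩ := hs
        · obtain ⟨w, e, hw⟩ := hp p hpF _ h1
          exact ⟨h * w, by rw [map_mul, ← badAction.act_mul, e, h2], R.rdG_mul hh hw⟩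
        · obtain ⟨w, e, hw⟩ := hp p hpF _ h1
          have hw' := R.rdG_inv hw
          rw [show R.ρ w = p.2 from e, h2] at hw'
          exact ⟨h * w⁻¹, by rw [map_mul, map_inv, ← badAction.act_mul, e, ← h2,
            badAction.act_inv], R.rdG_mul hh hw'⟩
    obtain ⟨h, e, hh⟩ := key _ hc
    have e2 : emb (n + 1) (FreeGroup.of true) = emb M h := by
      by_contra hne
      refine hx (emb (n + 1) (FreeGroup.of true) * (emb M h)⁻¹) (by rwa [Ne, mul_inv_eq_one]) ?_
      rw [← badAction.act_mul, e, badAction.act_inv]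
    rw [← emb_phis hMn] at e2
    rw [← emb_injective M e2] at hh
    exact hh
  · refine le_trans ?_ hT.le
    show ∑ p : F', badAction.μ (Φ.piece p.1) ≤ _
    rw [← tsum_fintype (L := SummationFilter.unconditional _)]
    refine ENNReal.tsum_comp_le_tsum_of_injective
      (f := fun p : F' => (⟨p.1, fun h => (Finset.mem_filter.1 p.2).2
        (hn _ (Finset.mem_image_of_mem _ h))⟩ : {x // x ∉ T})) ?_
      fun b => badAction.μ (Φ.piece b.1)
    intro p q h
    exact Subtype.ext (congrArg (fun z : {x // x ∉ T} => z.1) h)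
  · intro s hs
    have := sh_gap (emb n) (emb_injective n) G_torsionFree s hs
    have e : ∀ d, R.ρ (phis R.k (ltr d)) = emb n (ltr d) := fun d => emb_phis (by omega) _
    simp only [e]
    exact this

end Vale.Agent.P189
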