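import Vale.Agent.P189.Energy

/-!
The initial energy, and reading words in the completely folded graph.
-/

open MeasureTheory
open scoped ENNReal

set_option linter.unusedSectionVars false

noncomputable section

namespace Vale.Agent.P189

open Vale.Agent.P090 (W Ltr inv inv_inv')
open Classical

namespace Setup

variable {X : Type} [MeasurableSpace X] {μ : Measure X} {J D : Type} [Fintype J] [Fintype D]
variable (S : Setup X μ J D)

theorem energy_init (h2 : ∀ j, j ≠ S.base → (Finset.univ.filter fun δ => S.org δ = j).card ≤ 2)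
    (E : Finset D) (hE : ∀ δ, S.org δ = S.base → δ ∈ E ∨ ∃ d, δ = S.drt d 0) :
    S.energy (fun _ j => j) ≤ ∑ δ ∈ E, μ (S.pres δ) := by
  set c : X → J → J := fun _ j => j with hc
  have h1 : ∀ x, S.xi c x ≤ (E.filter fun δ => x ∈ S.pres δ).card := by
    intro x
    have hsub : ∀ l, ((S.T c x).filter fun t => t.2.1 = l) ⊆
        ((S.Pr x).filter fun δ => S.org δ = l).image (S.tr c x) := by
      intro l t ht
      obtain ⟨h1, h2⟩ := Finset.mem_filter.1 ht
      obtain ⟨δ, hδ, rfl⟩ := Finset.mem_image.1 h1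
      exact Finset.mem_image_of_mem _ (Finset.mem_filter.2 ⟨hδ, h2⟩)
    have hdeg : ∀ l, S.deg c x l ≤ ((S.Pr x).filter fun δ => S.org δ = l).card :=
      fun l => (Finset.card_le_card (hsub l)).trans Finset.card_image_le
    rw [xi, Finset.sum_eq_single S.base]
    · have h3 : ((S.Pr x).filter fun δ => S.org δ = S.base) ⊆
          (E.filter fun δ => x ∈ S.pres δ) ∪ Finset.univ.image fun d : Ltr => S.drt d 0 := by
        intro δ hδ
        obtain ⟨h1, h2⟩ := Finset.mem_filter.1 hδ
        rcases hE δ h2 with h | ⟨d, rfl⟩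
        · exact Finset.mem_union_left _ (Finset.mem_filter.2 ⟨h, S.mem_Pr.1 h1⟩)
        · exact Finset.mem_union_right _ (Finset.mem_image_of_mem _ (Finset.mem_univ d))
      have h4 := (Finset.card_le_card h3).trans (Finset.card_union_le _ _)
      have h5 : (Finset.univ.image fun d : Ltr => S.drt d 0).card ≤ 4 :=
        Finset.card_image_le.trans (by simp)
      have h6 : S.cap c x S.base = 4 := if_pos rfl
      have h7 := hdeg S.base
      omega
    · intro l _ hl
      have h6 : S.cap c x l = 2 := if_neg hl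
      have h7 := (hdeg l).trans ((Finset.card_le_card
        (Finset.filter_subset_filter _ (Finset.subset_univ _))).trans (h2 l hl))
      omega
    · intro h
      exact absurd (S.base_mem_V c x) h
  calc S.energy c ≤ ∫⁻ x, ∑ δ ∈ E, (S.pres δ).indicator 1 x ∂μ := by
        refine lintegral_mono fun x => ?_
        have h4 : ∑ δ ∈ E, (S.pres δ).indicator (1 : X → ℝ≥0∞) x =
            ((E.filter fun δ => x ∈ S.pres δ).card : ℝ≥0∞) := by
          rw [Finset.card_filter, Nat.cast_sum]
          refine Finset.sum_congr rfl fun δ _ => ?_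
          by_cases h : x ∈ S.pres δ <;> simp [Set.indicator, h]
        show (S.xi c x : ℝ≥0∞) ≤ _
        rw [h4]
        exact_mod_cast h1 x
    _ = ∑ δ ∈ E, μ (S.pres δ) := by
        rw [lintegral_finsetSum _ fun δ _ => measurable_one.indicator (S.pres_meas δ)]
        exact Finset.sum_congr rfl fun δ _ => lintegral_indicator_one (S.pres_meas δ)

/-- Moving along a word. -/
def mvs : List Ltr → X → X
  | [], x => x
  | d :: w, x => mvs w (S.mv d x)

theorem mvs_append (w w' : List Ltr) (x : X) : S.mvs (w ++ w') x = S.mvs w' (S.mvs w x) := by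
  induction w generalizing x with
  | nil => rfl
  | cons d w ih => exact ih _

/-- Reading a word in the completely folded graph. -/
inductive Rd : X → J → List Ltr → J → Prop
  | nil {x j j'} : S.Fold x j j' → Rd x j [] j'
  | cons {x j w j'} (δ) : x ∈ S.pres δ → S.Fold x j (S.org δ) →
      Rd (S.mv (S.lt δ) x) (S.ter δ) w j' → Rd x j (S.lt δ :: w) j'

variable {S}

theorem Rd.left {x : X} {j₀ j j' : J} {w : List Ltr} (h₀ : S.Fold x j₀ j) (h : S.Rd x j w j') :
    S.Rd x j₀ w j' := by
  cases h with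
  | nil h => exact Rd.nil (h₀.trans h)
  | cons δ h1 h2 h3 => exact Rd.cons δ h1 (h₀.trans h2) h3

theorem Rd.append {x : X} {j j' j'' : J} {w w' : List Ltr} (h : S.Rd x j w j')
    (h' : S.Rd (S.mvs w x) j' w' j'') : S.Rd x j (w ++ w') j'' := by
  induction h with
  | nil h => exact h'.left h
  | cons δ h1 h2 _ ih => exact Rd.cons δ h1 h2 (ih h')

theorem Rd.of_nil {x : X} {j j' : J} (h : S.Rd x j [] j') : S.Fold x j j' := by
  generalize hw : ([] : List Ltr) = w at h
  cases h with
  | nil h => exact h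
  | cons δ h1 h2 h3 => cases hw

theorem Rd.of_cons {x : X} {j j' : J} {d : Ltr} {w : List Ltr} (h : S.Rd x j (d :: w) j') :
    ∃ δ, S.lt δ = d ∧ x ∈ S.pres δ ∧ S.Fold x j (S.org δ) ∧ S.Rd (S.mv d x) (S.ter δ) w j' := by
  generalize hw : d :: w = w' at h
  cases h with
  | nil h => cases hw
  | cons δ h1 h2 h3 =>
    obtain ⟨rfl, rfl⟩ := List.cons.inj hw
    exact ⟨δ, rfl, h1, h2, h3⟩

theorem Rd.det {x : X} {j j₁ j₂ : J} {w : List Ltr} (h₁ : S.Rd x j w j₁) (h₂ : S.Rd x j w j₂) :
    S.Fold (S.mvs w x) j₁ j₂ := by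
  induction h₁ with
  | nil h => exact h.symm.trans h₂.of_nil
  | cons δ h1 h2 _ ih =>
    obtain ⟨δ', e, h1', h2', h3'⟩ := h₂.of_cons
    exact ih (h3'.left (Fold.fold δ δ' _ h1 h1' e.symm (h2.symm.trans h2')))

theorem Rd.cancel {x : X} {j j' : J} {d : Ltr} {w w' : List Ltr}
    (h : S.Rd x j (w ++ d :: inv d :: w') j') : S.Rd x j (w ++ w') j' := by
  induction w generalizing x j with
  | nil =>
    obtain ⟨δ, rfl, h1, h2, h3⟩ := h.of_cons
    obtain ⟨δ', e, h1', h2', h3'⟩ := h3.of_cons
    have h4 := Fold.fold (S.rev δ) δ' _ (S.pres_rev δ x h1) h1' (by rw [S.lt_rev, e]) h2'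
    rw [S.lt_rev, S.mv_inv, ter, S.rev_rev] at h4
    rw [S.mv_inv] at h3'
    exact h3'.left (h2.trans h4)
  | cons d' w ih =>
    obtain ⟨δ, rfl, h1, h2, h3⟩ := h.of_cons
    exact Rd.cons δ h1 h2 (ih h3)

theorem Rd.red {x : X} {j j' : J} {w w' : List Ltr} (hr : FreeGroup.Red w w')
    (h : S.Rd x j w j') : S.Rd x j w' j' := by
  induction hr with
  | refl => exact h
  | tail _ hs ih =>
    cases hs
    exact ih.cancel

theorem Rd.invRev {x : X} {j j' : J} {w : List Ltr} (h : S.Rd x j w j') :
    S.Rd (S.mvs w x) j' (FreeGroup.invRev w) j := by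
  induction h with
  | nil h => exact Rd.nil h.symm
  | @cons x j w j' δ h1 h2 _ ih =>
    rw [FreeGroup.invRev_cons]
    refine ih.append ?_
    have e : ∀ (w : List Ltr) (y : X), S.mvs (FreeGroup.invRev w) (S.mvs w y) = y := by
      intro w
      induction w with
      | nil => intro y; rfl
      | cons d w ih =>
        intro y
        rw [FreeGroup.invRev_cons, S.mvs_append]
        show S.mvs _ (S.mvs _ (S.mvs w (S.mv d y))) = y
        rw [ih]
        exact S.mv_inv d y
    rw [e]
    have h3 : FreeGroup.invRev [S.lt δ] = [S.lt (S.rev δ)] := by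
      rw [S.lt_rev]
      rfl
    rw [h3]
    refine Rd.cons (S.rev δ) (S.pres_rev δ x h1) (Fold.refl _ _) (Rd.nil ?_)
    rw [S.lt_rev, S.mv_inv, ter, S.rev_rev]
    exact h2.symm

variable (S) in
/-- The first letters of a special path. -/
def pw (d : Ltr) (k : ℕ) : List Ltr := (List.range k).map fun i => S.lt (S.drt d i)

theorem mvs_pw (d : Ltr) (k : ℕ) (x : X) : S.mvs (S.pw d k) x = S.P d k x := by
  induction k with
  | zero => rfl
  | succ k ih =>
    rw [pw, List.range_succ, List.map_append, S.mvs_append, ← pw, ih]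
    rfl

theorem rd_pw (d : Ltr) {k : ℕ} (hk : k ≤ S.len) (x : X) :
    S.Rd x S.base (S.pw d k) (S.vx d k) := by
  induction k with
  | zero => exact Rd.nil (S.vx_zero d ▸ Fold.refl _ _)
  | succ k ih =>
    rw [pw, List.range_succ, List.map_append, ← pw]
    refine (ih (by omega)).append ?_
    refine Rd.cons (S.drt d k) (S.drt_pres _ _ _ (by omega)) ?_ (Rd.nil ?_)
    · rw [S.vx_lt (by omega)]
      exact Fold.refl _ _
    · rw [S.ter_drt (by omega)]
      exact Fold.refl _ _

variable (S) in
/-- The group element `g` is read by a path from the base vertex to a base vertex. -/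
def RdG (x : X) (g : W) : Prop := ∃ w, FreeGroup.mk w = g ∧ S.Rd x S.base w S.base

theorem RdG.fold {x : X} {d : Ltr} {k : ℕ} (hk : k ≤ S.len)
    (h : S.RdG x (FreeGroup.mk (S.pw d k))) : S.Fold (S.P d k x) (S.vx d k) S.base := by
  obtain ⟨w, e, h⟩ := h
  have h1 := h.red (FreeGroup.reduce.red (L := w))
  have h2 := (rd_pw d hk x).red (FreeGroup.reduce.red (L := S.pw d k))
  rw [FreeGroup.reduce.sound e] at h1
  have h3 := h2.det h1
  have e2 : ∀ {w w' : List Ltr}, FreeGroup.Red w w' → ∀ y, S.mvs w y = S.mvs w' y := by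
    intro w w' hr
    induction hr with
    | refl => exact fun _ => rfl
    | tail _ hs ih =>
      cases hs with
      | @not L₁ L₂ a b =>
        intro y
        rw [ih, S.mvs_append, S.mvs_append]
        exact congrArg (S.mvs L₂) (S.mv_inv (a, b) _)
  rwa [← e2 FreeGroup.reduce.red, mvs_pw] at h3

end Setup

end Vale.Agent.P189
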